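import Claimed.Agent.R282.K2.S6.Defs

/-!
# Row 282, S6, leaf L-S6-4: tops and socles of the transposed module
-/

set_option autoImplicit false

namespace Claimed.Agent.R282

open Module

variable {k : Type} [Field k] {n : ℕ} {d : Fin n → ℕ}

theorem s6d_key {p : ℕ} {ι : Type} (m : ι → ℕ) (A : ∀ j, Matrix (Fin (m j)) (Fin p) k) :
    finrank k ((Fin p → k) ⧸ (⨆ j, LinearMap.range (Matrix.mulVecLin (A j).transpose)))
      = finrank k (⨅ j, LinearMap.ker (Matrix.mulVecLin (A j)) : Submodule k (Fin p → k)) := by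
  rw [(Subspace.quotEquivAnnihilator
    (⨆ j, LinearMap.range (Matrix.mulVecLin (A j).transpose))).finrank_eq,
    ← LinearEquiv.finrank_map_eq (dotProductEquiv k (Fin p))
      (⨅ j, LinearMap.ker (Matrix.mulVecLin (A j)))]
  suffices hEq : (⨆ j, LinearMap.range (Matrix.mulVecLin (A j).transpose)).dualAnnihilator
      = (⨅ j, LinearMap.ker (Matrix.mulVecLin (A j))).map
        ((dotProductEquiv k (Fin p) : (Fin p → k) ≃ₗ[k] Module.Dual k (Fin p → k)) :
          (Fin p → k) →ₗ[k] Module.Dual k (Fin p → k)) by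
    rw [hEq]
  rw [Submodule.dualAnnihilator_iSup_eq]
  have key : ∀ (x : Fin p → k) (j : ι) (z : Fin (m j) → k),
      dotProductEquiv k (Fin p) x (Matrix.mulVecLin (A j).transpose z)
        = dotProduct ((A j).mulVec x) z := by
    intro x j z
    show dotProduct x ((A j).transpose.mulVec z) = _
    rw [Matrix.dotProduct_mulVec, Matrix.vecMul_transpose]
  apply le_antisymm
  · intro φ hφ
    rw [Submodule.mem_iInf] at hφ
    refine ⟨(dotProductEquiv k (Fin p)).symm φ, ?_, LinearEquiv.apply_symm_apply _ _⟩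
    show (dotProductEquiv k (Fin p)).symm φ ∈ (⨅ j, LinearMap.ker (Matrix.mulVecLin (A j)))
    rw [Submodule.mem_iInf]
    intro j
    rw [LinearMap.mem_ker]
    show (A j).mulVec ((dotProductEquiv k (Fin p)).symm φ) = 0
    apply dotProduct_eq_zero
    intro z
    rw [← key, LinearEquiv.apply_symm_apply]
    exact (Submodule.mem_dualAnnihilator φ).1 (hφ j) _ ⟨z, rfl⟩
  · rintro _ ⟨x, hx, rfl⟩
    have hx' : x ∈ (⨅ j, LinearMap.ker (Matrix.mulVecLin (A j))) := hx
    rw [Submodule.mem_iInf] at hx'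
    rw [Submodule.mem_iInf]
    intro j
    rw [Submodule.mem_dualAnnihilator]
    rintro _ ⟨z, rfl⟩
    have h0 : (A j).mulVec x = 0 := hx' j
    show dotProductEquiv k (Fin p) x (Matrix.mulVecLin (A j).transpose z) = 0
    rw [key, h0, zero_dotProduct]

/-- L-S6-4a -/
theorem s6_dual_top (M : PiMod k n d) (i : Fin n) : M.dual.top i = M.soc i :=
  s6d_key (fun j => d j) (fun j => M.a i j)

/-- L-S6-4b -/
theorem s6_dual_soc (M : PiMod k n d) (i : Fin n) : M.dual.soc i = M.top i := by
  have := s6d_key (fun j => d j) (fun j => (M.a j i).transpose)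
  exact this.symm

end Claimed.Agent.R282
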