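import Claimed.Agent.R282.K2.S6.Dual

/-!
# Row 282, S6, leaf L-S6-6: the doubled module (plan: header of `K2/S6.lean`, item (3))

PROVED (helper288).  Matrix form: `V_j ⊕ V_j` has the index type `Fin (d j) ⊕ Fin (d j)`; `s6a_Es s T T'` is the idempotent onto the graph of `s T`
(`s = ± 1`); `s6a_Data` = coordinates `emb i`, `prj i` with `prj * emb = 1`, `emb * prj = ` idempotent (`1` on the trunk); arrows `prj j * (a ⊕ a) * emb i`.
Only SOCLES are computed (`soc_trunk`, `soc_leaf`); the tops follow by applying the same lemmas to the transposed data (`s6a_Data.dual`, `M.dual`)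
and `s6_dual_soc` (leaf L-S6-4).
-/

set_option autoImplicit false

namespace Claimed.Agent.R282

open Module Matrix

variable {k : Type} [Field k]

section blocks

variable {m : ℕ}

/-- the idempotent onto the graph of `s T` along the graph of `- s T` (`s = ± 1`). -/
def s6a_Es (s : k) (T T' : Matrix (Fin m) (Fin m) k) : Matrix (Fin m ⊕ Fin m) (Fin m ⊕ Fin m) k :=
  (2 : k)⁻¹ • Matrix.fromBlocks 1 (s • T') (s • T) 1

/-- `x ↦ (x, s T x)`. -/
def s6a_ga (s : k) (T : Matrix (Fin m) (Fin m) k) : Matrix (Fin m ⊕ Fin m) (Fin m) k :=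
  Matrix.fromRows 1 (s • T)

/-- `(x, y) ↦ (x + s T' y) / 2`. -/
def s6a_de (s : k) (T' : Matrix (Fin m) (Fin m) k) : Matrix (Fin m) (Fin m ⊕ Fin m) k :=
  (2 : k)⁻¹ • Matrix.fromCols 1 (s • T')

theorem s6a_de_ga (h2 : (2 : k) ≠ 0) {s : k} (hs : s * s = 1) {T T' : Matrix (Fin m) (Fin m) k}
    (h : T' * T = 1) : s6a_de s T' * s6a_ga s T = 1 := by
  unfold s6a_de s6a_ga
  rw [Matrix.smul_mul, Matrix.fromCols_mul_fromRows, Matrix.one_mul, Matrix.smul_mul, Matrix.mul_smul, h,
    smul_smul, hs, one_smul, ← two_smul k (1 : Matrix (Fin m) (Fin m) k), smul_smul, inv_mul_cancel₀ h2,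
    one_smul]

theorem s6a_ga_de {s : k} (hs : s * s = 1) {T T' : Matrix (Fin m) (Fin m) k}
    (h : T * T' = 1) : s6a_ga s T * s6a_de s T' = s6a_Es s T T' := by
  unfold s6a_de s6a_ga s6a_Es
  rw [Matrix.mul_smul, Matrix.fromRows_mul_fromCols]
  simp only [Matrix.one_mul, Matrix.mul_one, Matrix.smul_mul, Matrix.mul_smul, h, smul_smul, hs, one_smul]

theorem s6a_Es_add (h2 : (2 : k) ≠ 0) (T T' : Matrix (Fin m) (Fin m) k) :
    s6a_Es 1 T T' + s6a_Es (-1) T T' = 1 := by
  unfold s6a_Es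
  rw [← smul_add, Matrix.fromBlocks_add]
  simp only [one_smul, neg_smul, add_neg_cancel]
  rw [← two_smul k (1 : Matrix (Fin m) (Fin m) k), Matrix.fromBlocks_smul]
  simp only [smul_smul, inv_mul_cancel₀ h2, one_smul, smul_zero, Matrix.fromBlocks_one]

theorem s6a_Es_transpose (s : k) (T T' : Matrix (Fin m) (Fin m) k) :
    (s6a_Es s T T')ᵀ = s6a_Es s T'ᵀ Tᵀ := by
  unfold s6a_Es
  rw [Matrix.transpose_smul, Matrix.fromBlocks_transpose]
  simp

theorem s6a_ga_mulVec (s : k) (T : Matrix (Fin m) (Fin m) k) (x : Fin m → k) :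
    s6a_ga s T *ᵥ x = Sum.elim x (s • (T *ᵥ x)) := by
  unfold s6a_ga
  rw [Matrix.fromRows_mulVec, Matrix.one_mulVec, Matrix.smul_mulVec]

theorem s6a_Es_diag_Es {s : k} (hs : s * s = 1) {T T' t : Matrix (Fin m) (Fin m) k} (h1 : T * T' = 1)
    (h2 : T' * T = 1) (ha : T * t + t * T = 0) :
    s6a_Es s T T' * Matrix.fromBlocks t 0 0 t * s6a_Es s T T' = 0 := by
  have e1 : t * T = -(T * t) := by rw [eq_neg_iff_add_eq_zero, add_comm]; exact ha
  have e2 : T' * t * T = -t := by
    rw [Matrix.mul_assoc, e1, Matrix.mul_neg, ← Matrix.mul_assoc, h2, Matrix.one_mul]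
  have e3 : T * t * T' = -t := by
    have : T * t = -(t * T) := by rw [e1, neg_neg]
    rw [this, Matrix.neg_mul, Matrix.mul_assoc, h1, Matrix.mul_one]
  have e4 : T' * t = -(t * T') := by
    calc T' * t = T' * t * (T * T') := by rw [h1, Matrix.mul_one]
      _ = (T' * t * T) * T' := by simp only [Matrix.mul_assoc]
      _ = -(t * T') := by rw [e2, Matrix.neg_mul]
  unfold s6a_Es
  rw [Matrix.smul_mul, Matrix.smul_mul, Matrix.mul_smul, Matrix.fromBlocks_multiply, Matrix.fromBlocks_multiply]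
  simp only [Matrix.one_mul, Matrix.mul_one, Matrix.mul_zero, add_zero, zero_add, Matrix.smul_mul,
    Matrix.mul_smul, smul_smul, hs, one_smul, e2, e3, add_neg_cancel, neg_add_cancel]
  have e5 : t * T' + T' * t = 0 := by rw [e4, add_neg_cancel]
  rw [← smul_add, ← smul_add, e5, ha, smul_zero, Matrix.fromBlocks_zero, smul_zero]

theorem s6a_diag_sum {ι : Type} (s : Finset ι) (f : ι → Matrix (Fin m) (Fin m) k) :
    ∑ x ∈ s, Matrix.fromBlocks (f x) 0 0 (f x) = Matrix.fromBlocks (∑ x ∈ s, f x) 0 0 (∑ x ∈ s, f x) := by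
  classical
  induction s using Finset.induction_on with
  | empty => simp
  | insert a s ha ih => rw [Finset.sum_insert ha, Finset.sum_insert ha, ih, Matrix.fromBlocks_add]; simp

end blocks

section fib

variable (n r : ℕ) (hr : 1 ≤ r) (hrn : r + 2 ≤ n)

theorem s6a_fib_a (j' : Fin n) (h : j'.val + 1 < r) :
    Finset.univ.filter (fun j : Fin (r + 1) => cutIdx n r hr hrn j = j') = {⟨j'.val, by omega⟩} := by
  ext j
  simp only [Finset.mem_filter, Finset.mem_univ, true_and, Finset.mem_singleton, Fin.ext_iff, cutIdx]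
  omega

theorem s6a_fib_b (j' : Fin n) (h : j'.val + 1 = r) :
    Finset.univ.filter (fun j : Fin (r + 1) => cutIdx n r hr hrn j = j')
      = {⟨r - 1, by omega⟩, ⟨r, by omega⟩} := by
  ext j
  simp only [Finset.mem_filter, Finset.mem_univ, true_and, Finset.mem_singleton, Finset.mem_insert,
    Fin.ext_iff, cutIdx]
  omega

theorem s6a_fib_c (j' : Fin n) (h : r ≤ j'.val) :
    Finset.univ.filter (fun j : Fin (r + 1) => cutIdx n r hr hrn j = j') = ∅ := by
  ext j
  simp only [Finset.mem_filter, Finset.mem_univ, true_and, Finset.notMem_empty, iff_false, Fin.ext_iff, cutIdx]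
  omega

theorem s6a_adj (i j : Fin (r + 1))
    (h : adjD n (cutIdx n r hr hrn i) (cutIdx n r hr hrn j)) : adjD (r + 1) i j := by
  unfold adjD at h ⊢
  simp only [cutIdx] at h
  omega

end fib

variable {n : ℕ} {d : Fin n → ℕ}

/-- the doubled arrow. -/
def s6a_AA (M : PiMod k n d) (i j : Fin n) :
    Matrix (Fin (d j) ⊕ Fin (d j)) (Fin (d i) ⊕ Fin (d i)) k :=
  Matrix.fromBlocks (M.a i j) 0 0 (M.a i j)

theorem s6a_AA_mulVec (M : PiMod k n d) (i j : Fin n) (x y : Fin (d i) → k) :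
    s6a_AA M i j *ᵥ Sum.elim x y = Sum.elim (M.a i j *ᵥ x) (M.a i j *ᵥ y) := by
  unfold s6a_AA
  rw [Matrix.fromBlocks_mulVec]
  simp

theorem s6a_AA_zero (M : PiMod k n d) {i j : Fin n} (h : ¬ adjD n i j) : s6a_AA M i j = 0 := by
  unfold s6a_AA
  rw [M.zero i j h, Matrix.fromBlocks_zero]

theorem s6a_AA_dual (M : PiMod k n d) (i j : Fin n) : s6a_AA M.dual i j = (s6a_AA M j i)ᵀ := by
  unfold s6a_AA
  rw [Matrix.fromBlocks_transpose]
  simp [PiMod.dual]

/-- the sign of a leaf. -/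
def s6a_sg (k : Type) [Field k] (r : ℕ) (i : Fin (r + 1)) : k := if i.val + 1 = r then 1 else -1

theorem s6a_sg_sq (r : ℕ) (i : Fin (r + 1)) : s6a_sg k r i * s6a_sg k r i = 1 := by
  unfold s6a_sg
  split_ifs <;> simp

/-- the idempotent at a vertex: `1` on the trunk. -/
def s6a_EEf (T T' : ∀ j : Fin n, Matrix (Fin (d j)) (Fin (d j)) k) (tr : Prop) [Decidable tr] (s : k)
    (j : Fin n) : Matrix (Fin (d j) ⊕ Fin (d j)) (Fin (d j) ⊕ Fin (d j)) k :=
  if tr then 1 else s6a_Es s (T j) (T' j)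

/-- coordinates on the doubled module. -/
structure s6a_Data (k : Type) [Field k] (n r : ℕ) (hr : 1 ≤ r) (hrn : r + 2 ≤ n) (d : Fin n → ℕ) where
  T : ∀ j : Fin n, Matrix (Fin (d j)) (Fin (d j)) k
  T' : ∀ j : Fin n, Matrix (Fin (d j)) (Fin (d j)) k
  TT' : ∀ j, T j * T' j = 1
  T'T : ∀ j, T' j * T j = 1
  emb : ∀ i : Fin (r + 1), Matrix (Fin (d (cutIdx n r hr hrn i)) ⊕ Fin (d (cutIdx n r hr hrn i)))
    (Fin (cutDim n r hr hrn d i)) k
  prj : ∀ i : Fin (r + 1), Matrix (Fin (cutDim n r hr hrn d i))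
    (Fin (d (cutIdx n r hr hrn i)) ⊕ Fin (d (cutIdx n r hr hrn i))) k
  pe : ∀ i, prj i * emb i = 1
  ep : ∀ i, emb i * prj i = s6a_EEf T T' (i.val + 1 < r) (s6a_sg k r i) (cutIdx n r hr hrn i)

namespace s6a_Data

variable {r : ℕ} {hr : 1 ≤ r} {hrn : r + 2 ≤ n} (D : s6a_Data k n r hr hrn d)

/-- the arrows of the doubled module. -/
def arr (M : PiMod k n d) (i j : Fin (r + 1)) :
    Matrix (Fin (cutDim n r hr hrn d j)) (Fin (cutDim n r hr hrn d i)) k :=
  D.prj j * s6a_AA M (cutIdx n r hr hrn i) (cutIdx n r hr hrn j) * D.emb i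

/-- the transposed coordinates. -/
def dual : s6a_Data k n r hr hrn d where
  T := fun j => (D.T' j)ᵀ
  T' := fun j => (D.T j)ᵀ
  TT' := fun j => by rw [← Matrix.transpose_mul, D.TT', Matrix.transpose_one]
  T'T := fun j => by rw [← Matrix.transpose_mul, D.T'T, Matrix.transpose_one]
  emb := fun i => (D.prj i)ᵀ
  prj := fun i => (D.emb i)ᵀ
  pe := fun i => by rw [← Matrix.transpose_mul, D.pe, Matrix.transpose_one]
  ep := fun i => by
    rw [← Matrix.transpose_mul, D.ep]
    unfold s6a_EEf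
    split_ifs
    · exact Matrix.transpose_one
    · exact s6a_Es_transpose _ _ _

theorem arr_dual (M : PiMod k n d) (i j : Fin (r + 1)) : D.dual.arr M.dual i j = (D.arr M j i)ᵀ := by
  unfold arr
  rw [Matrix.transpose_mul, Matrix.transpose_mul, s6a_AA_dual, Matrix.mul_assoc]
  rfl

theorem arr_mulVec_iff (M : PiMod k n d) (i j : Fin (r + 1)) (x : Fin (cutDim n r hr hrn d i) → k) :
    D.arr M i j *ᵥ x = 0 ↔
      s6a_EEf D.T D.T' (j.val + 1 < r) (s6a_sg k r j) (cutIdx n r hr hrn j) *ᵥ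
        (s6a_AA M (cutIdx n r hr hrn i) (cutIdx n r hr hrn j) *ᵥ (D.emb i *ᵥ x)) = 0 := by
  rw [← D.ep]
  unfold arr
  constructor
  · intro h
    have := congrArg (fun v => D.emb j *ᵥ v) h
    simp only [Matrix.mulVec_zero] at this
    rw [← this]
    simp only [Matrix.mulVec_mulVec, Matrix.mul_assoc]
  · intro h
    have := congrArg (fun v => D.prj j *ᵥ v) h
    simp only [Matrix.mulVec_zero, Matrix.mulVec_mulVec] at this
    rw [← this]
    congr 1
    have e : D.prj j * (D.emb j * D.prj j) = D.prj j := by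
      rw [← Matrix.mul_assoc, D.pe, Matrix.one_mul]
    calc D.prj j * s6a_AA M (cutIdx n r hr hrn i) (cutIdx n r hr hrn j) * D.emb i
        = (D.prj j * (D.emb j * D.prj j)) * s6a_AA M (cutIdx n r hr hrn i) (cutIdx n r hr hrn j) * D.emb i := by
          rw [e]
      _ = _ := by simp only [Matrix.mul_assoc]

/-- transported form. -/
theorem arr_mulVec_at (M : PiMod k n d) (i J : Fin (r + 1)) (x : Fin (cutDim n r hr hrn d i) → k)
    (h : D.arr M i J *ᵥ x = 0) (j' : Fin n) (hJ : cutIdx n r hr hrn J = j') :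
    s6a_EEf D.T D.T' (J.val + 1 < r) (s6a_sg k r J) j' *ᵥ
        (s6a_AA M (cutIdx n r hr hrn i) j' *ᵥ (D.emb i *ᵥ x)) = 0 := by
  subst hJ
  exact (D.arr_mulVec_iff M i J x).1 h

theorem mem_soc_iff (M : PiMod k n d) (c : Fin n) (x : Fin (d c) → k) :
    x ∈ (⨅ j, LinearMap.ker (Matrix.mulVecLin (M.a c j)) : Submodule k (Fin (d c) → k)) ↔
      ∀ j, M.a c j *ᵥ x = 0 := by
  simp [Submodule.mem_iInf]

theorem mem_kerL_iff (M : PiMod k n d) (c : Fin n) (x : Fin (d c) → k) :
    x ∈ M.kerL c ↔ ∀ j, j < c → M.a c j *ᵥ x = 0 := by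
  unfold PiMod.kerL
  rw [Submodule.mem_iInf]
  refine forall_congr' fun j => ?_
  split_ifs with h
  · simp [h]
  · simp [h]

/-- the socle of the doubled module at a trunk vertex. -/
theorem soc_trunk (h2 : (2 : k) ≠ 0) (M : PiMod k n d) (i : Fin (r + 1)) (hi : i.val + 1 < r) :
    finrank k (⨅ j, LinearMap.ker (Matrix.mulVecLin (D.arr M i j)) :
      Submodule k (Fin (cutDim n r hr hrn d i) → k)) = 2 * M.soc (cutIdx n r hr hrn i) := by
  set c := cutIdx n r hr hrn i with hc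
  set S : Submodule k (Fin (d c) → k) := ⨅ j, LinearMap.ker (Matrix.mulVecLin (M.a c j)) with hS
  have hep : D.emb i * D.prj i = 1 := by
    rw [D.ep]; unfold s6a_EEf; rw [if_pos hi]
  let G : (S × S) →ₗ[k] (Fin (cutDim n r hr hrn d i) → k) :=
    Matrix.mulVecLin (D.prj i) ∘ₗ (LinearEquiv.sumArrowLequivProdArrow (Fin (d c)) (Fin (d c)) k k).symm.toLinearMap
      ∘ₗ (S.subtype.prodMap S.subtype)
  have hGapp : ∀ p : S × S, G p = D.prj i *ᵥ Sum.elim (p.1 : Fin (d c) → k) (p.2 : Fin (d c) → k) := by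
    intro p
    show D.prj i *ᵥ _ = _
    congr 1
  have hepv : ∀ v, D.emb i *ᵥ (D.prj i *ᵥ v) = v := by
    intro v
    rw [Matrix.mulVec_mulVec, hep, Matrix.one_mulVec]
  have hGinj : Function.Injective G := by
    rw [← LinearMap.ker_eq_bot, LinearMap.ker_eq_bot']
    intro p hp
    rw [hGapp] at hp
    have h1 := congrArg (fun v => D.emb i *ᵥ v) hp
    simp only [Matrix.mulVec_mulVec, hep, Matrix.one_mulVec, Matrix.mulVec_zero] at h1
    have h3 : (p.1 : Fin (d c) → k) = 0 := by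
      funext a
      exact congrFun h1 (Sum.inl a)
    have h4 : (p.2 : Fin (d c) → k) = 0 := by
      funext a
      exact congrFun h1 (Sum.inr a)
    exact Prod.ext (Subtype.ext h3) (Subtype.ext h4)
  have hrange : LinearMap.range G = (⨅ j, LinearMap.ker (Matrix.mulVecLin (D.arr M i j)) :
      Submodule k (Fin (cutDim n r hr hrn d i) → k)) := by
    apply le_antisymm
    · rintro _ ⟨p, rfl⟩
      rw [Submodule.mem_iInf]
      intro j
      rw [LinearMap.mem_ker, Matrix.mulVecLin_apply, hGapp, D.arr_mulVec_iff, hepv, s6a_AA_mulVec, ((mem_soc_iff M c _).1 p.1.2 _), ((mem_soc_iff M c _).1 p.2.2 _)]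
      have : (Sum.elim (0 : Fin (d (cutIdx n r hr hrn j)) → k) (0 : Fin (d (cutIdx n r hr hrn j)) → k)) = 0 := by
        funext a; cases a <;> rfl
      rw [this, Matrix.mulVec_zero]
    · intro z hz
      rw [Submodule.mem_iInf] at hz
      have hz' : ∀ j, D.arr M i j *ᵥ z = 0 := fun j => by
        have := hz j
        rwa [LinearMap.mem_ker, Matrix.mulVecLin_apply] at this
      set w := D.emb i *ᵥ z with hw
      have hzw : z = D.prj i *ᵥ w := by
        rw [hw, Matrix.mulVec_mulVec, D.pe, Matrix.one_mulVec]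
      have hwe : w = Sum.elim (w ∘ Sum.inl) (w ∘ Sum.inr) := (Sum.elim_comp_inl_inr w).symm
      have key : ∀ j' : Fin n, s6a_AA M c j' *ᵥ w = 0 := by
        intro j'
        by_cases h1 : r ≤ j'.val
        · have : ¬ adjD n c j' := by
            rw [hc]; unfold adjD; simp only [cutIdx]; omega
          rw [s6a_AA_zero M this, Matrix.zero_mulVec]
        by_cases h3 : j'.val + 1 < r
        · have := D.arr_mulVec_at M i ⟨j'.val, by omega⟩ z (hz' _) j'
            (by apply Fin.ext; simp only [cutIdx]; omega)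
          unfold s6a_EEf at this
          rw [if_pos h3, Matrix.one_mulVec] at this
          exact this
        · have e1 := D.arr_mulVec_at M i ⟨r - 1, by omega⟩ z (hz' _) j'
            (by apply Fin.ext; simp only [cutIdx]; omega)
          have e2 := D.arr_mulVec_at M i ⟨r, by omega⟩ z (hz' _) j'
            (by apply Fin.ext; simp only [cutIdx]; omega)
          unfold s6a_EEf s6a_sg at e1 e2
          rw [if_neg (by simp only []; omega), if_pos (by simp only []; omega)] at e1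
          rw [if_neg (by simp only []; omega), if_neg (by simp only []; omega)] at e2
          have e3 := congrArg₂ (· + ·) e1 e2
          simp only [← Matrix.add_mulVec, s6a_Es_add h2, Matrix.one_mulVec, add_zero] at e3
          exact e3
      have hx : ∀ j', M.a c j' *ᵥ (w ∘ Sum.inl) = 0 ∧ M.a c j' *ᵥ (w ∘ Sum.inr) = 0 := by
        intro j'
        have := key j'
        rw [hwe, s6a_AA_mulVec] at this
        constructor
        · funext a; exact congrFun this (Sum.inl a)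
        · funext a; exact congrFun this (Sum.inr a)
      refine ⟨(⟨w ∘ Sum.inl, (mem_soc_iff M c _).2 fun j' => (hx j').1⟩,
        ⟨w ∘ Sum.inr, (mem_soc_iff M c _).2 fun j' => (hx j').2⟩), ?_⟩
      rw [hGapp, hzw]
      simp only [Sum.elim_comp_inl_inr]
  rw [← hrange, LinearMap.finrank_range_of_inj hGinj, Module.finrank_prod, two_mul]
  rfl

/-- the socle of the doubled module at a leaf. -/
theorem soc_leaf (h2 : (2 : k) ≠ 0) (M : PiMod k n d) (i : Fin (r + 1)) (hi : r ≤ i.val + 1) :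
    finrank k (⨅ j, LinearMap.ker (Matrix.mulVecLin (D.arr M i j)) :
      Submodule k (Fin (cutDim n r hr hrn d i) → k)) =
    finrank k (M.kerL (cutIdx n r hr hrn i) ⊓ (M.kerL (cutIdx n r hr hrn i)).comap
      (Matrix.mulVecLin (D.T (cutIdx n r hr hrn i))) : Submodule k (Fin (d (cutIdx n r hr hrn i)) → k)) := by
  set c := cutIdx n r hr hrn i with hc
  set s : k := s6a_sg k r i with hs
  have hss : s * s = 1 := s6a_sg_sq r i
  have hs0 : s ≠ 0 := by
    intro h; rw [h, mul_zero] at hss; exact zero_ne_one hss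
  have hep : D.emb i * D.prj i = s6a_ga s (D.T c) * s6a_de s (D.T' c) := by
    rw [D.ep, s6a_ga_de hss (D.TT' c)]; unfold s6a_EEf; rw [if_neg (by omega)]
  have hdg : s6a_de s (D.T' c) * s6a_ga s (D.T c) = 1 := s6a_de_ga h2 hss (D.T'T c)
  set Tsub : Submodule k (Fin (d c) → k) := M.kerL c ⊓ (M.kerL c).comap (Matrix.mulVecLin (D.T c)) with hT
  let g : (Fin (d c) → k) →ₗ[k] (Fin (cutDim n r hr hrn d i) → k) :=
    Matrix.mulVecLin (D.prj i * s6a_ga s (D.T c))
  have hgapp : ∀ x, g x = D.prj i *ᵥ (s6a_ga s (D.T c) *ᵥ x) := by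
    intro x
    show (D.prj i * s6a_ga s (D.T c)) *ᵥ x = _
    rw [Matrix.mulVec_mulVec]
  have hemb : ∀ x, D.emb i *ᵥ g x = s6a_ga s (D.T c) *ᵥ x := by
    intro x
    rw [hgapp, Matrix.mulVec_mulVec, hep, Matrix.mulVec_mulVec, Matrix.mul_assoc, hdg, Matrix.mul_one]
  have hginj : Function.Injective g := by
    rw [← LinearMap.ker_eq_bot, LinearMap.ker_eq_bot']
    intro x hx
    have h1 := hemb x
    rw [hx, Matrix.mulVec_zero] at h1
    have h3 := congrArg (fun v => s6a_de s (D.T' c) *ᵥ v) h1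
    simp only [Matrix.mulVec_mulVec, hdg, Matrix.one_mulVec, Matrix.mulVec_zero] at h3
    exact h3.symm
  have hmap : Tsub.map g = (⨅ j, LinearMap.ker (Matrix.mulVecLin (D.arr M i j)) :
      Submodule k (Fin (cutDim n r hr hrn d i) → k)) := by
    apply le_antisymm
    · rintro _ ⟨x, hx, rfl⟩
      obtain ⟨hx1, hx2⟩ := hx
      have hx2' : D.T c *ᵥ x ∈ M.kerL c := hx2
      rw [Submodule.mem_iInf]
      intro j
      rw [LinearMap.mem_ker, Matrix.mulVecLin_apply, D.arr_mulVec_iff, hemb, s6a_ga_mulVec, s6a_AA_mulVec]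
      have hz : M.a c (cutIdx n r hr hrn j) *ᵥ x = 0 ∧
          M.a c (cutIdx n r hr hrn j) *ᵥ (s • (D.T c *ᵥ x)) = 0 := by
        by_cases hj : cutIdx n r hr hrn j < c
        · rw [Matrix.mulVec_smul, (mem_kerL_iff M c _).1 hx1 _ hj, (mem_kerL_iff M c _).1 hx2' _ hj, smul_zero]
          exact ⟨rfl, rfl⟩
        · have : ¬ adjD n c (cutIdx n r hr hrn j) := by
            rw [hc, Fin.lt_def] at hj
            rw [hc]; unfold adjD; simp only [cutIdx] at hj ⊢; omega
          rw [M.zero _ _ this, Matrix.zero_mulVec, Matrix.zero_mulVec]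
          exact ⟨rfl, rfl⟩
      rw [hz.1, hz.2]
      have : (Sum.elim (0 : Fin (d (cutIdx n r hr hrn j)) → k) (0 : Fin (d (cutIdx n r hr hrn j)) → k)) = 0 := by
        funext a; cases a <;> rfl
      rw [this, Matrix.mulVec_zero]
    · intro z hz
      rw [Submodule.mem_iInf] at hz
      have hz' : ∀ j, D.arr M i j *ᵥ z = 0 := fun j => by
        have := hz j
        rwa [LinearMap.mem_ker, Matrix.mulVecLin_apply] at this
      set w := D.emb i *ᵥ z with hw
      have hzw : z = D.prj i *ᵥ w := by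
        rw [hw, Matrix.mulVec_mulVec, D.pe, Matrix.one_mulVec]
      set x := s6a_de s (D.T' c) *ᵥ w with hx
      have hwx : w = s6a_ga s (D.T c) *ᵥ x := by
        rw [hx, Matrix.mulVec_mulVec, ← hep, hw, Matrix.mulVec_mulVec, Matrix.mul_assoc, D.pe, Matrix.mul_one]
      have key : ∀ j' : Fin n, j' < c → M.a c j' *ᵥ x = 0 ∧ M.a c j' *ᵥ (D.T c *ᵥ x) = 0 := by
        intro j' hj'
        have hj'' : j'.val + 1 < r := by
          rw [hc, Fin.lt_def] at hj'
          simp only [cutIdx] at hj'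
          omega
        have := D.arr_mulVec_at M i ⟨j'.val, by omega⟩ z (hz' _) j'
          (by apply Fin.ext; simp only [cutIdx]; omega)
        unfold s6a_EEf at this
        rw [if_pos hj'', Matrix.one_mulVec, ← hw, hwx, s6a_ga_mulVec, s6a_AA_mulVec] at this
        constructor
        · funext a; exact congrFun this (Sum.inl a)
        · have h5 : M.a c j' *ᵥ (s • (D.T c *ᵥ x)) = 0 := by
            funext a; exact congrFun this (Sum.inr a)
          rw [Matrix.mulVec_smul] at h5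
          exact (smul_eq_zero.1 h5).resolve_left hs0
      refine ⟨x, ⟨(mem_kerL_iff M c _).2 fun j' hj' => (key j' hj').1, ?_⟩, ?_⟩
      · show D.T c *ᵥ x ∈ M.kerL c
        exact (mem_kerL_iff M c _).2 fun j' hj' => (key j' hj').2
      · rw [hgapp, ← hwx, ← hzw]
  rw [← hmap]
  exact (LinearEquiv.finrank_eq (Submodule.equivMapOfInjective g hginj Tsub)).symm

end s6a_Data

theorem s6a_AA_mul (M : PiMod k n d) (i j : Fin n) :
    s6a_AA M j i * s6a_AA M i j = Matrix.fromBlocks (M.a j i * M.a i j) 0 0 (M.a j i * M.a i j) := by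
  unfold s6a_AA
  rw [Matrix.fromBlocks_multiply]
  simp

namespace s6a_Data

variable {r : ℕ} {hr : 1 ≤ r} {hrn : r + 2 ≤ n} (D : s6a_Data k n r hr hrn d)

/-- one term of the relation at `i`, with the middle vertex as a free parameter. -/
def Phi (M : PiMod k n d) (i : Fin (r + 1)) (j' : Fin n) (j : Fin (r + 1)) :
    Matrix (Fin (d (cutIdx n r hr hrn i)) ⊕ Fin (d (cutIdx n r hr hrn i)))
      (Fin (d (cutIdx n r hr hrn i)) ⊕ Fin (d (cutIdx n r hr hrn i))) k :=
  (if j < i then (1 : k) else -1) • (s6a_AA M j' (cutIdx n r hr hrn i) *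
    s6a_EEf D.T D.T' (j.val + 1 < r) (s6a_sg k r j) j' * s6a_AA M (cutIdx n r hr hrn i) j')

theorem arr_mul_arr (M : PiMod k n d) (i j : Fin (r + 1)) :
    (if j < i then (1 : k) else -1) • (D.arr M j i * D.arr M i j)
      = D.prj i * D.Phi M i (cutIdx n r hr hrn j) j * D.emb i := by
  unfold arr Phi
  rw [← D.ep]
  simp only [Matrix.mul_smul, Matrix.smul_mul, Matrix.mul_assoc]

theorem sum_arr (M : PiMod k n d) (i : Fin (r + 1)) :
    ∑ j, (if j < i then (1 : k) else -1) • (D.arr M j i * D.arr M i j)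
      = D.prj i * (∑ j' : Fin n, ∑ j ∈ Finset.univ.filter (fun j => cutIdx n r hr hrn j = j'),
          D.Phi M i j' j) * D.emb i := by
  simp only [arr_mul_arr]
  rw [← Matrix.sum_mul, ← Matrix.mul_sum]
  congr 2
  rw [← Finset.sum_fiberwise Finset.univ (fun j => cutIdx n r hr hrn j)]
  refine Finset.sum_congr rfl fun j' _ => Finset.sum_congr rfl fun j hj => ?_
  rw [(Finset.mem_filter.1 hj).2]

theorem fib_trunk (h2 : (2 : k) ≠ 0) (M : PiMod k n d) (i : Fin (r + 1)) (hi : i.val + 1 < r) (j' : Fin n) :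
    ∑ j ∈ Finset.univ.filter (fun j => cutIdx n r hr hrn j = j'), D.Phi M i j' j
      = Matrix.fromBlocks
        ((if j' < cutIdx n r hr hrn i then (1 : k) else -1) •
          (M.a j' (cutIdx n r hr hrn i) * M.a (cutIdx n r hr hrn i) j')) 0 0
        ((if j' < cutIdx n r hr hrn i then (1 : k) else -1) •
          (M.a j' (cutIdx n r hr hrn i) * M.a (cutIdx n r hr hrn i) j')) := by
  have hsm : ∀ (c : k) (P : Matrix (Fin (d (cutIdx n r hr hrn i))) (Fin (d (cutIdx n r hr hrn i))) k),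
      Matrix.fromBlocks (c • P) 0 0 (c • P) = c • Matrix.fromBlocks P 0 0 P := by
    intro c P
    rw [Matrix.fromBlocks_smul]; simp
  rw [hsm, ← s6a_AA_mul]
  by_cases h1 : r ≤ j'.val
  · rw [s6a_fib_c n r hr hrn j' h1, Finset.sum_empty]
    have : ¬ adjD n (cutIdx n r hr hrn i) j' := by
      unfold adjD; simp only [cutIdx]; omega
    rw [s6a_AA_zero M this, Matrix.mul_zero, smul_zero]
  by_cases h3 : j'.val + 1 < r
  · rw [s6a_fib_a n r hr hrn j' h3, Finset.sum_singleton]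
    unfold Phi s6a_EEf
    rw [if_pos h3, Matrix.mul_one]
    congr 1
    have : ((⟨j'.val, by omega⟩ : Fin (r + 1)) < i) ↔ j' < cutIdx n r hr hrn i := by
      rw [Fin.lt_def, Fin.lt_def]; simp only [cutIdx]; omega
    simp only [this]
  · rw [s6a_fib_b n r hr hrn j' (by omega), Finset.sum_pair (by simp [Fin.ext_iff]; omega)]
    unfold Phi s6a_EEf s6a_sg
    have a1 : ¬ ((⟨r - 1, by omega⟩ : Fin (r + 1)) < i) := by rw [Fin.lt_def]; simp only []; omega
    have a2 : ¬ ((⟨r, by omega⟩ : Fin (r + 1)) < i) := by rw [Fin.lt_def]; simp only []; omega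
    have a3 : ¬ (j' < cutIdx n r hr hrn i) := by rw [Fin.lt_def]; simp only [cutIdx]; omega
    have b1 : ¬ (r - 1 + 1 < r) := by omega
    have b2 : r - 1 + 1 = r := by omega
    have b3 : ¬ (r + 1 < r) := by omega
    have b4 : ¬ (r + 1 = r) := by omega
    rw [if_neg a1, if_neg a2, if_neg a3]
    dsimp only
    rw [if_neg b1, if_pos b2, if_neg b3, if_neg b4, ← smul_add, ← Matrix.add_mul,
      ← Matrix.mul_add, s6a_Es_add h2, Matrix.mul_one]

theorem fib_leaf (M : PiMod k n d) (i : Fin (r + 1)) (hi : r ≤ i.val + 1) (j' : Fin n) :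
    ∑ j ∈ Finset.univ.filter (fun j => cutIdx n r hr hrn j = j'), D.Phi M i j' j
      = Matrix.fromBlocks
        (if j' < cutIdx n r hr hrn i then
          (M.a j' (cutIdx n r hr hrn i) * M.a (cutIdx n r hr hrn i) j') else 0) 0 0
        (if j' < cutIdx n r hr hrn i then
          (M.a j' (cutIdx n r hr hrn i) * M.a (cutIdx n r hr hrn i) j') else 0) := by
  by_cases h1 : r ≤ j'.val
  · rw [s6a_fib_c n r hr hrn j' h1, Finset.sum_empty]
    have a3 : ¬ (j' < cutIdx n r hr hrn i) := by rw [Fin.lt_def]; simp only [cutIdx]; omega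
    rw [if_neg a3, Matrix.fromBlocks_zero]
  by_cases h3 : j'.val + 1 < r
  · rw [s6a_fib_a n r hr hrn j' h3, Finset.sum_singleton]
    unfold Phi s6a_EEf
    have a1 : ((⟨j'.val, by omega⟩ : Fin (r + 1)) < i) := by rw [Fin.lt_def]; simp only []; omega
    have a3 : (j' < cutIdx n r hr hrn i) := by rw [Fin.lt_def]; simp only [cutIdx]; omega
    rw [if_pos h3, Matrix.mul_one, if_pos a1, if_pos a3, one_smul, s6a_AA_mul]
  · have a3 : ¬ (j' < cutIdx n r hr hrn i) := by rw [Fin.lt_def]; simp only [cutIdx]; omega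
    have : ¬ adjD n (cutIdx n r hr hrn i) j' := by
      unfold adjD; simp only [cutIdx]; omega
    rw [if_neg a3, Matrix.fromBlocks_zero]
    apply Finset.sum_eq_zero
    intro j _
    unfold Phi
    rw [s6a_AA_zero M this, Matrix.mul_zero, smul_zero]

theorem rel (h2 : (2 : k) ≠ 0) (M : PiMod k n d)
    (hanti : ∀ j : Fin n, j.val + 1 = r → D.T j * M.ret j + M.ret j * D.T j = 0) (i : Fin (r + 1)) :
    ∑ j, (if j < i then (1 : k) else -1) • (D.arr M j i * D.arr M i j) = 0 := by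
  rw [sum_arr]
  by_cases hi : i.val + 1 < r
  · simp only [D.fib_trunk h2 M i hi]
    rw [s6a_diag_sum, M.rel, Matrix.fromBlocks_zero, Matrix.mul_zero, Matrix.zero_mul]
  · simp only [D.fib_leaf M i (by omega)]
    rw [s6a_diag_sum]
    have hret : (∑ j', if j' < cutIdx n r hr hrn i then
        (M.a j' (cutIdx n r hr hrn i) * M.a (cutIdx n r hr hrn i) j') else 0) = M.ret (cutIdx n r hr hrn i) := rfl
    rw [hret]
    have hE : D.emb i * D.prj i = s6a_Es (s6a_sg k r i) (D.T (cutIdx n r hr hrn i)) (D.T' (cutIdx n r hr hrn i)) := by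
      rw [D.ep]; unfold s6a_EEf; rw [if_neg hi]
    have e1 : D.prj i = D.prj i * (D.emb i * D.prj i) := by
      rw [← Matrix.mul_assoc, D.pe, Matrix.one_mul]
    have e2 : D.emb i = (D.emb i * D.prj i) * D.emb i := by
      rw [Matrix.mul_assoc, D.pe, Matrix.mul_one]
    have hz := s6a_Es_diag_Es (s6a_sg_sq (k := k) r i) (D.TT' (cutIdx n r hr hrn i)) (D.T'T (cutIdx n r hr hrn i))
      (hanti (cutIdx n r hr hrn i) (by simp only [cutIdx]; omega))
    calc D.prj i * Matrix.fromBlocks (M.ret (cutIdx n r hr hrn i)) 0 0 (M.ret (cutIdx n r hr hrn i)) * D.emb i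
        = (D.prj i * (D.emb i * D.prj i)) * Matrix.fromBlocks (M.ret (cutIdx n r hr hrn i)) 0 0
            (M.ret (cutIdx n r hr hrn i)) * ((D.emb i * D.prj i) * D.emb i) := by rw [← e1, ← e2]
      _ = D.prj i * ((D.emb i * D.prj i) * Matrix.fromBlocks (M.ret (cutIdx n r hr hrn i)) 0 0
            (M.ret (cutIdx n r hr hrn i)) * (D.emb i * D.prj i)) * D.emb i := by
          simp only [Matrix.mul_assoc]
      _ = 0 := by rw [hE, hz, Matrix.mul_zero, Matrix.zero_mul]

/-- the doubled module. -/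
def toMod (h2 : (2 : k) ≠ 0) (M : PiMod k n d)
    (hanti : ∀ j : Fin n, j.val + 1 = r → D.T j * M.ret j + M.ret j * D.T j = 0) :
    PiMod k (r + 1) (cutDim n r hr hrn d) where
  a := D.arr M
  zero := fun i j hij => by
    unfold arr
    rw [s6a_AA_zero M (fun h => hij (s6a_adj n r hr hrn i j h)), Matrix.mul_zero, Matrix.zero_mul]
  rel := D.rel h2 M hanti

end s6a_Data

theorem s6a_factor_cast {ι : Type} [Fintype ι] [DecidableEq ι] {m₀ m : ℕ} (h : m₀ = m) (E : Matrix ι ι k)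
    (emb₀ : Matrix ι (Fin m₀) k) (prj₀ : Matrix (Fin m₀) ι k) (h1 : prj₀ * emb₀ = 1) (h2 : emb₀ * prj₀ = E) :
    ∃ (emb : Matrix ι (Fin m) k) (prj : Matrix (Fin m) ι k), prj * emb = 1 ∧ emb * prj = E := by
  subst h
  exact ⟨emb₀, prj₀, h1, h2⟩

theorem s6a_factor_one (a : ℕ) :
    ∃ (emb : Matrix (Fin a ⊕ Fin a) (Fin (a + a)) k) (prj : Matrix (Fin (a + a)) (Fin a ⊕ Fin a) k),
      prj * emb = 1 ∧ emb * prj = 1 := by
  refine ⟨(1 : Matrix (Fin a ⊕ Fin a) (Fin a ⊕ Fin a) k).submatrix id finSumFinEquiv.symm,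
    (1 : Matrix (Fin a ⊕ Fin a) (Fin a ⊕ Fin a) k).submatrix finSumFinEquiv.symm id, ?_, ?_⟩
  · have := Matrix.submatrix_mul_equiv (1 : Matrix (Fin a ⊕ Fin a) (Fin a ⊕ Fin a) k)
      (1 : Matrix (Fin a ⊕ Fin a) (Fin a ⊕ Fin a) k) (finSumFinEquiv (m := a) (n := a)).symm (Equiv.refl _)
      (finSumFinEquiv (m := a) (n := a)).symm
    rw [Matrix.mul_one, Matrix.submatrix_one_equiv] at this
    exact this
  · have := Matrix.submatrix_mul_equiv (1 : Matrix (Fin a ⊕ Fin a) (Fin a ⊕ Fin a) k)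
      (1 : Matrix (Fin a ⊕ Fin a) (Fin a ⊕ Fin a) k) id (finSumFinEquiv (m := a) (n := a)).symm id
    rw [Matrix.mul_one, Matrix.submatrix_id_id] at this
    exact this

/-- the family `θ` at `c`, `1` elsewhere. -/
def s6a_fam (c : Fin n) (θ : Matrix (Fin (d c)) (Fin (d c)) k) (j : Fin n) : Matrix (Fin (d j)) (Fin (d j)) k :=
  if h : j = c then h ▸ θ else 1

theorem s6a_fam_self (c : Fin n) (θ : Matrix (Fin (d c)) (Fin (d c)) k) : s6a_fam c θ c = θ := by
  unfold s6a_fam
  rw [dif_pos rfl]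

theorem s6a_fam_mul (c : Fin n) (θ θ' : Matrix (Fin (d c)) (Fin (d c)) k) (h : θ * θ' = 1) (j : Fin n) :
    s6a_fam c θ j * s6a_fam c θ' j = 1 := by
  by_cases hj : j = c
  · subst hj
    rw [s6a_fam_self, s6a_fam_self, h]
  · unfold s6a_fam
    rw [dif_neg hj, dif_neg hj, Matrix.one_mul]

theorem s6a_exists_data (h2 : (2 : k) ≠ 0) (r : ℕ) (hr : 1 ≤ r) (hrn : r + 2 ≤ n) (c : Fin n)
    (θ θ' : Matrix (Fin (d c)) (Fin (d c)) k) (h1 : θ * θ' = 1) (h1' : θ' * θ = 1) :
    ∃ D : s6a_Data k n r hr hrn d, D.T = s6a_fam c θ ∧ D.T' = s6a_fam c θ' := by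
  have hex : ∀ i : Fin (r + 1), ∃ (emb : Matrix (Fin (d (cutIdx n r hr hrn i)) ⊕ Fin (d (cutIdx n r hr hrn i)))
      (Fin (cutDim n r hr hrn d i)) k) (prj : Matrix (Fin (cutDim n r hr hrn d i))
      (Fin (d (cutIdx n r hr hrn i)) ⊕ Fin (d (cutIdx n r hr hrn i))) k), prj * emb = 1 ∧
      emb * prj = s6a_EEf (s6a_fam c θ) (s6a_fam c θ') (i.val + 1 < r) (s6a_sg k r i) (cutIdx n r hr hrn i) := by
    intro i
    by_cases hi : i.val + 1 < r
    · obtain ⟨e, p, q1, q2⟩ := s6a_factor_one (k := k) (d (cutIdx n r hr hrn i))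
      refine s6a_factor_cast (by unfold cutDim; rw [if_pos hi, two_mul]) _ e p q1 ?_
      unfold s6a_EEf
      rw [if_pos hi, q2]
    · refine s6a_factor_cast (by unfold cutDim; rw [if_neg hi]) _
        (s6a_ga (s6a_sg k r i) (s6a_fam c θ (cutIdx n r hr hrn i)))
        (s6a_de (s6a_sg k r i) (s6a_fam c θ' (cutIdx n r hr hrn i)))
        (s6a_de_ga h2 (s6a_sg_sq r i) (s6a_fam_mul c θ' θ h1' _)) ?_
      unfold s6a_EEf
      rw [if_neg hi, s6a_ga_de (s6a_sg_sq r i) (s6a_fam_mul c θ θ' h1 _)]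
  choose emb prj pe ep using hex
  exact ⟨⟨s6a_fam c θ, s6a_fam c θ', s6a_fam_mul c θ θ' h1, s6a_fam_mul c θ' θ h1', emb, prj, pe, ep⟩, rfl, rfl⟩

theorem s6a_finrank_swap {m : ℕ} {A B : Matrix (Fin m) (Fin m) k} (hAB : A * B = 1) (hBA : B * A = 1)
    (K : Submodule k (Fin m → k)) :
    finrank k (K ⊓ K.comap (Matrix.mulVecLin A) : Submodule k (Fin m → k))
      = finrank k (K ⊓ K.comap (Matrix.mulVecLin B) : Submodule k (Fin m → k)) := by
  have hinj : Function.Injective (Matrix.mulVecLin A) := by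
    intro x y hxy
    have := congrArg (fun v => B *ᵥ v) hxy
    simpa [Matrix.mulVec_mulVec, hBA] using this
  have hmap : (K ⊓ K.comap (Matrix.mulVecLin A)).map (Matrix.mulVecLin A)
      = K ⊓ K.comap (Matrix.mulVecLin B) := by
    apply le_antisymm
    · rintro _ ⟨x, ⟨hx1, hx2⟩, rfl⟩
      refine ⟨hx2, ?_⟩
      show B *ᵥ (A *ᵥ x) ∈ K
      rw [Matrix.mulVec_mulVec, hBA, Matrix.one_mulVec]
      exact hx1
    · rintro y ⟨hy1, hy2⟩
      refine ⟨B *ᵥ y, ⟨hy2, ?_⟩, ?_⟩
      · show A *ᵥ (B *ᵥ y) ∈ K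
        rw [Matrix.mulVec_mulVec, hAB, Matrix.one_mulVec]
        exact hy1
      · show A *ᵥ (B *ᵥ y) = y
        rw [Matrix.mulVec_mulVec, hAB, Matrix.one_mulVec]
  rw [← hmap]
  exact LinearEquiv.finrank_eq (Submodule.equivMapOfInjective _ hinj _)

/-- L-S6-6: assembly of the doubled module from `θ`. -/
theorem s6_assemble (n r : ℕ) (hr : 1 ≤ r) (hrn : r + 2 ≤ n) (d : Fin n → ℕ)
    (h2 : (2 : k) ≠ 0) (M : PiMod k n d) (c : Fin n) (hc : c.val + 1 = r)
    (θ : Matrix (Fin (d c)) (Fin (d c)) k) (hθ : IsUnit θ)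
    (hanti : θ * M.ret c + M.ret c * θ = 0) :
    ∃ M' : PiMod k (r + 1) (cutDim n r hr hrn d),
      (∀ i : Fin (r + 1), i.val + 1 < r →
        M'.top i = 2 * M.top (cutIdx n r hr hrn i) ∧ M'.soc i = 2 * M.soc (cutIdx n r hr hrn i)) ∧
      (∀ i : Fin (r + 1), r ≤ i.val + 1 →
        M'.soc i = finrank k (M.kerL c ⊓
          (M.kerL c).comap (Matrix.mulVecLin θ) : Submodule k (Fin (d c) → k)) ∧
        M'.top i = finrank k (M.dual.kerL c ⊓
          (M.dual.kerL c).comap (Matrix.mulVecLin θ.transpose) : Submodule k (Fin (d c) → k))) := by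
  have hdet : IsUnit θ.det := (Matrix.isUnit_iff_isUnit_det θ).1 hθ
  have h1 : θ * θ⁻¹ = 1 := Matrix.mul_nonsing_inv θ hdet
  have h1' : θ⁻¹ * θ = 1 := Matrix.nonsing_inv_mul θ hdet
  obtain ⟨D, hT, hT'⟩ := s6a_exists_data h2 r hr hrn c θ θ⁻¹ h1 h1'
  have hanti' : ∀ j : Fin n, j.val + 1 = r → D.T j * M.ret j + M.ret j * D.T j = 0 := by
    intro j hj
    have : j = c := Fin.ext (by omega)
    subst this
    rw [hT, s6a_fam_self]
    exact hanti
  have htop : ∀ i, (D.toMod h2 M hanti').top i = finrank k (⨅ j, LinearMap.ker (Matrix.mulVecLin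
      (D.dual.arr M.dual i j)) : Submodule k (Fin (cutDim n r hr hrn d i) → k)) := by
    intro i
    rw [← s6_dual_soc]
    have e : (⨅ j, LinearMap.ker (Matrix.mulVecLin (D.dual.arr M.dual i j)) :
        Submodule k (Fin (cutDim n r hr hrn d i) → k))
        = ⨅ j, LinearMap.ker (Matrix.mulVecLin ((D.toMod h2 M hanti').dual.a i j)) :=
      iInf_congr fun j => by rw [D.arr_dual]; rfl
    rw [e]
    rfl
  refine ⟨D.toMod h2 M hanti', fun i hi => ⟨?_, D.soc_trunk h2 M i hi⟩, fun i hi => ⟨?_, ?_⟩⟩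
  · rw [htop, D.dual.soc_trunk h2 M.dual i hi, s6_dual_soc]
  · have hci : cutIdx n r hr hrn i = c := Fin.ext (by simp only [cutIdx]; omega)
    have := D.soc_leaf h2 M i hi
    rw [hci, hT, s6a_fam_self] at this
    exact this
  · have hci : cutIdx n r hr hrn i = c := Fin.ext (by simp only [cutIdx]; omega)
    have := D.dual.soc_leaf h2 M.dual i hi
    rw [hci] at this
    have e : D.dual.T c = (θ⁻¹)ᵀ := by
      show (D.T' c)ᵀ = _
      rw [hT', s6a_fam_self]
    rw [e] at this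
    rw [htop, this]
    apply s6a_finrank_swap
    · rw [← Matrix.transpose_mul, h1, Matrix.transpose_one]
    · rw [← Matrix.transpose_mul, h1', Matrix.transpose_one]

end Claimed.Agent.R282
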