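import Claimed.Agent.R282.K2.S6.Lin

/-!
# Row 282, S6, leaf L-S6-5: nilpotency of the return maps and the threshold bound (plan: header of `K2/S6.lean`, item (1)).  PROVED by helper283 (auxiliary names `s6t_`).
-/

set_option autoImplicit false

namespace Claimed.Agent.R282

open Module

section Abstract

variable {k : Type} [Field k]

/-- step of the descending induction -/
theorem s6t_step {X Y : Type} [AddCommGroup X] [Module k X] [FiniteDimensional k X]
    [AddCommGroup Y] [Module k Y] [FiniteDimensional k Y] (u : X →ₗ[k] Y) (v : Y →ₗ[k] X) (e : ℕ)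
    (K : Submodule k Y) (h0 : finrank k (LinearMap.ker v ⊓ K : Submodule k Y) = 0)
    (hK : finrank k (hiSoc (u ∘ₗ v) e) ≤ 2 * finrank k (K ⊓ hiSoc (u ∘ₗ v) e : Submodule k Y)) :
    finrank k (hiSoc (v ∘ₗ u) e) ≤
      2 * finrank k (LinearMap.ker u ⊓ hiSoc (v ∘ₗ u) e : Submodule k X) := by
  obtain ⟨h1, h2⟩ := s6_edge u v e
  have h3 := s6_vertex (LinearMap.ker v) K (hiSoc (u ∘ₗ v) e)
  omega

/-- start of the descending induction: the fork -/
theorem s6t_base {X W₁ W₂ : Type} [AddCommGroup X] [Module k X] [FiniteDimensional k X]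
    [AddCommGroup W₁] [Module k W₁] [FiniteDimensional k W₁]
    [AddCommGroup W₂] [Module k W₂] [FiniteDimensional k W₂] (h2 : (2 : k) ≠ 0)
    (u₁ : X →ₗ[k] W₁) (u₂ : X →ₗ[k] W₂) (v₁ : W₁ →ₗ[k] X) (v₂ : W₂ →ₗ[k] X)
    (z₁ : u₁ ∘ₗ v₁ = 0) (z₂ : u₂ ∘ₗ v₂ = 0) (k₁ : LinearMap.ker v₁ = ⊥) (k₂ : LinearMap.ker v₂ = ⊥)
    (e : ℕ) :
    finrank k (hiSoc (v₁ ∘ₗ u₁ + v₂ ∘ₗ u₂) e) ≤
      2 * finrank k ((LinearMap.ker u₁ ⊓ LinearMap.ker u₂) ⊓ hiSoc (v₁ ∘ₗ u₁ + v₂ ∘ₗ u₂) e :
        Submodule k X) := by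
  have hvu : (v₁.coprod v₂) ∘ₗ (u₁.prod u₂) = v₁ ∘ₗ u₁ + v₂ ∘ₗ u₂ := by
    ext x
    simp
  have hker : LinearMap.ker (u₁.prod u₂) = LinearMap.ker u₁ ⊓ LinearMap.ker u₂ :=
    LinearMap.ker_prod u₁ u₂
  obtain ⟨e1, e2⟩ := s6_edge (u₁.prod u₂) (v₁.coprod v₂) e
  rw [hvu, hker] at e1 e2
  have hl := s6_leaf h2 ((u₁.prod u₂) ∘ₗ (v₁.coprod v₂))
    (fun x => by
      have := congrArg (fun f : W₁ →ₗ[k] W₁ => f x) z₁
      simpa using this)
    (fun y => by
      have := congrArg (fun f : W₂ →ₗ[k] W₂ => f y) z₂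
      simpa using this) e
    (LinearMap.ker (v₁.coprod v₂) ⊓ hiSoc ((u₁.prod u₂) ∘ₗ (v₁.coprod v₂)) e) inf_le_right
  have b1 : (LinearMap.ker (v₁.coprod v₂) ⊓ hiSoc ((u₁.prod u₂) ∘ₗ (v₁.coprod v₂)) e) ⊓
      LinearMap.range (LinearMap.inl k W₁ W₂) = ⊥ := by
    rw [eq_bot_iff]
    rintro _ ⟨⟨h3, -⟩, ⟨x, rfl⟩⟩
    have h4 : v₁ x = 0 := by simpa using h3
    have h5 : x ∈ LinearMap.ker v₁ := h4
    rw [k₁, Submodule.mem_bot] at h5
    simp [h5]
  have b2 : (LinearMap.ker (v₁.coprod v₂) ⊓ hiSoc ((u₁.prod u₂) ∘ₗ (v₁.coprod v₂)) e) ⊓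
      LinearMap.range (LinearMap.inr k W₁ W₂) = ⊥ := by
    rw [eq_bot_iff]
    rintro _ ⟨⟨h3, -⟩, ⟨x, rfl⟩⟩
    have h4 : v₂ x = 0 := by simpa using h3
    have h5 : x ∈ LinearMap.ker v₂ := h4
    rw [k₂, Submodule.mem_bot] at h5
    simp [h5]
  rw [b1, b2, finrank_bot] at hl
  omega

/-- `(A B)^(m+1) = A (B A)^m B` for rectangular matrices -/
theorem s6t_pow_succ {p q : Type} [Fintype p] [Fintype q] [DecidableEq p] [DecidableEq q]
    (A : Matrix p q k) (B : Matrix q p k) (m : ℕ) : (A * B) ^ (m + 1) = A * (B * A) ^ m * B := by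
  induction m with
  | zero => simp
  | succ m ih =>
    rw [pow_succ, ih, pow_succ (B * A) m]
    simp only [Matrix.mul_assoc]

end Abstract


variable {k : Type} [Field k] {n : ℕ} {d : Fin n → ℕ}

/-- the return map through the RIGHT neighbours -/
def PiMod.s6tRetR (M : PiMod k n d) (c : Fin n) : Matrix (Fin (d c)) (Fin (d c)) k :=
  ∑ j, if c < j then M.a j c * M.a c j else 0

/-- the kernel of the arrows to the right neighbours -/
def PiMod.s6tKerR (M : PiMod k n d) (c : Fin n) : Submodule k (Fin (d c) → k) :=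
  ⨅ j, if c < j then LinearMap.ker (Matrix.mulVecLin (M.a c j)) else ⊤

theorem s6t_eqns_cite : True := by
  have := @PiMod.s6tRetR.eq_1
  have := @PiMod.s6tKerR.eq_1
  trivial

theorem s6t_not_adj_self (c : Fin n) : ¬ adjD n c c := by
  unfold adjD
  omega

theorem s6t_ret_eq (M : PiMod k n d) (c : Fin n) : M.ret c = M.s6tRetR c := by
  have h := M.rel c
  rw [← sub_eq_zero]
  unfold PiMod.ret PiMod.s6tRetR
  rw [← Finset.sum_sub_distrib]
  refine (Finset.sum_congr rfl fun j _ => ?_).trans h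
  rcases lt_trichotomy j c with hj | hj | hj
  · rw [if_pos hj, if_neg (not_lt.2 hj.le), if_pos hj, one_smul, sub_zero]
  · subst hj
    rw [if_neg (lt_irrefl _), if_neg (lt_irrefl _), M.zero j j (s6t_not_adj_self j)]
    simp
  · rw [if_neg (not_lt.2 hj.le), if_pos hj, if_neg (not_lt.2 hj.le), neg_one_smul, zero_sub]

theorem s6t_ker_zero (p q : ℕ) :
    LinearMap.ker (Matrix.mulVecLin (0 : Matrix (Fin p) (Fin q) k)) = ⊤ := by
  rw [Matrix.mulVecLin_zero, LinearMap.ker_zero]

theorem s6t_soc_eq (M : PiMod k n d) (c : Fin n) :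
    M.soc c = finrank k (M.kerL c ⊓ M.s6tKerR c : Submodule k (Fin (d c) → k)) := by
  unfold PiMod.soc
  have key : (⨅ j, LinearMap.ker (Matrix.mulVecLin (M.a c j)) : Submodule k (Fin (d c) → k)) =
      M.kerL c ⊓ M.s6tKerR c := ?_
  · rw [key]
  unfold PiMod.kerL PiMod.s6tKerR
  apply le_antisymm
  · refine le_inf (le_iInf fun j => ?_) (le_iInf fun j => ?_)
    · split_ifs
      · exact iInf_le _ j
      · exact le_top
    · split_ifs
      · exact iInf_le _ j
      · exact le_top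
  · refine le_iInf fun j => ?_
    rcases lt_trichotomy j c with hj | hj | hj
    · refine inf_le_left.trans ((iInf_le _ j).trans ?_)
      rw [if_pos hj]
    · subst hj
      rw [M.zero j j (s6t_not_adj_self j), s6t_ker_zero]
      exact le_top
    · refine inf_le_right.trans ((iInf_le _ j).trans ?_)
      rw [if_pos hj]

/-! ### an edge `i - j` of the trunk, `j = i + 1` -/

theorem s6t_ret_succ (M : PiMod k n d) (i j : Fin n) (hij : i.val + 1 = j.val) (hj : j.val + 3 ≤ n) :
    M.ret j = M.a i j * M.a j i := by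
  unfold PiMod.ret
  rw [Finset.sum_eq_single i]
  · rw [if_pos (Fin.lt_def.2 (by omega))]
  · intro l _ hl
    split_ifs with h
    · have hl' : l.val ≠ i.val := fun h' => hl (Fin.ext h')
      have h' := Fin.lt_def.1 h
      rw [M.zero l j (by unfold adjD; omega), Matrix.zero_mul]
    · rfl
  · intro h; exact absurd (Finset.mem_univ i) h

theorem s6t_kerL_succ (M : PiMod k n d) (i j : Fin n) (hij : i.val + 1 = j.val)
    (hj : j.val + 3 ≤ n) : M.kerL j = LinearMap.ker (Matrix.mulVecLin (M.a j i)) := by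
  unfold PiMod.kerL
  apply le_antisymm
  · refine (iInf_le _ i).trans ?_
    rw [if_pos (Fin.lt_def.2 (by omega))]
  · refine le_iInf fun l => ?_
    split_ifs with h
    · by_cases hl : l = i
      · rw [hl]
      · have hl' : l.val ≠ i.val := fun h' => hl (Fin.ext h')
        have h' := Fin.lt_def.1 h
        rw [M.zero j l (by unfold adjD; omega), s6t_ker_zero]
        exact le_top
    · exact le_top

theorem s6t_retR_succ (M : PiMod k n d) (i j : Fin n) (hij : i.val + 1 = j.val)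
    (hj : j.val + 3 ≤ n) : M.s6tRetR i = M.a j i * M.a i j := by
  unfold PiMod.s6tRetR
  rw [Finset.sum_eq_single j]
  · rw [if_pos (Fin.lt_def.2 (by omega))]
  · intro l _ hl
    split_ifs with h
    · have hl' : l.val ≠ j.val := fun h' => hl (Fin.ext h')
      have h' := Fin.lt_def.1 h
      rw [M.zero l i (by unfold adjD; omega), Matrix.zero_mul]
    · rfl
  · intro h; exact absurd (Finset.mem_univ j) h

theorem s6t_kerR_succ (M : PiMod k n d) (i j : Fin n) (hij : i.val + 1 = j.val)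
    (hj : j.val + 3 ≤ n) : M.s6tKerR i = LinearMap.ker (Matrix.mulVecLin (M.a i j)) := by
  unfold PiMod.s6tKerR
  apply le_antisymm
  · refine (iInf_le _ j).trans ?_
    rw [if_pos (Fin.lt_def.2 (by omega))]
  · refine le_iInf fun l => ?_
    split_ifs with h
    · by_cases hl : l = j
      · rw [hl]
      · have hl' : l.val ≠ j.val := fun h' => hl (Fin.ext h')
        have h' := Fin.lt_def.1 h
        rw [M.zero i l (by unfold adjD; omega), s6t_ker_zero]
        exact le_top
    · exact le_top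

/-! ### the fork `i`, with leaves `p`, `q` -/

theorem s6t_retR_fork (M : PiMod k n d) (i p q : Fin n) (hi : i.val + 3 = n) (hp : p.val + 2 = n)
    (hq : q.val + 1 = n) : M.s6tRetR i = M.a p i * M.a i p + M.a q i * M.a i q := by
  unfold PiMod.s6tRetR
  rw [Finset.sum_eq_add p q (fun h => by have := congrArg Fin.val h; omega)]
  · rw [if_pos (Fin.lt_def.2 (by omega)), if_pos (Fin.lt_def.2 (by omega))]
  · intro l _ hl
    split_ifs with h
    · have hl1 : l.val ≠ p.val := fun h' => hl.1 (Fin.ext h')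
      have hl2 : l.val ≠ q.val := fun h' => hl.2 (Fin.ext h')
      have h' := Fin.lt_def.1 h
      have := l.isLt
      omega
    · rfl
  · intro h; exact absurd (Finset.mem_univ p) h
  · intro h; exact absurd (Finset.mem_univ q) h

theorem s6t_kerR_fork (M : PiMod k n d) (i p q : Fin n) (hi : i.val + 3 = n) (hp : p.val + 2 = n)
    (hq : q.val + 1 = n) : M.s6tKerR i =
      LinearMap.ker (Matrix.mulVecLin (M.a i p)) ⊓ LinearMap.ker (Matrix.mulVecLin (M.a i q)) := by
  unfold PiMod.s6tKerR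
  apply le_antisymm
  · refine le_inf ((iInf_le _ p).trans ?_) ((iInf_le _ q).trans ?_)
    · rw [if_pos (Fin.lt_def.2 (by omega))]
    · rw [if_pos (Fin.lt_def.2 (by omega))]
  · refine le_iInf fun l => ?_
    split_ifs with h
    · have h' := Fin.lt_def.1 h
      have := l.isLt
      by_cases hl : l = p
      · rw [hl]; exact inf_le_left
      · have hl1 : l.val ≠ p.val := fun h' => hl (Fin.ext h')
        have hl2 : l = q := Fin.ext (by omega)
        rw [hl2]; exact inf_le_right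
    · exact le_top

/-- a leaf `p` with the only neighbour `i < p` -/
theorem s6t_leaf_rel (M : PiMod k n d) (i p : Fin n) (hip : i < p)
    (hadj : ∀ l : Fin n, l ≠ i → ¬ adjD n l p) : M.a i p * M.a p i = 0 := by
  have h := M.rel p
  rw [Finset.sum_eq_single i] at h
  · rwa [if_pos hip, one_smul] at h
  · intro l _ hl
    rw [M.zero l p (hadj l hl), Matrix.zero_mul, smul_zero]
  · intro h; exact absurd (Finset.mem_univ i) h

theorem s6t_leaf_ker (M : PiMod k n d) (i p : Fin n)
    (hadj : ∀ l : Fin n, l ≠ i → ¬ adjD n p l) (h0 : M.soc p = 0) :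
    LinearMap.ker (Matrix.mulVecLin (M.a p i)) = ⊥ := by
  unfold PiMod.soc at h0
  have h1 : (⨅ j, LinearMap.ker (Matrix.mulVecLin (M.a p j)) : Submodule k (Fin (d p) → k)) =
      LinearMap.ker (Matrix.mulVecLin (M.a p i)) := by
    apply le_antisymm (iInf_le _ i)
    refine le_iInf fun l => ?_
    by_cases hl : l = i
    · rw [hl]
    · rw [M.zero p l (hadj l hl), s6t_ker_zero]
      exact le_top
  rw [h1] at h0
  exact Submodule.finrank_eq_zero.1 h0

/-- the claim `dim F_i ≤ 2 dim B_i` -/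
theorem s6t_claim (h2 : (2 : k) ≠ 0) (M : PiMod k n d) (e : ℕ) (m : ℕ) :
    ∀ i : Fin n, i.val + 3 + m = n → (∀ j : Fin n, i < j → M.soc j = 0) →
      finrank k (hiSoc (Matrix.mulVecLin (M.ret i)) e) ≤
        2 * finrank k (M.s6tKerR i ⊓ hiSoc (Matrix.mulVecLin (M.ret i)) e :
          Submodule k (Fin (d i) → k)) := by
  induction m with
  | zero =>
    intro i hi h0
    have hi3 : i.val + 3 = n := by omega
    obtain ⟨p, hp⟩ : ∃ p : Fin n, p.val + 2 = n := ⟨⟨n - 2, by omega⟩, by simp; omega⟩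
    obtain ⟨q, hq⟩ : ∃ q : Fin n, q.val + 1 = n := ⟨⟨n - 1, by omega⟩, by simp; omega⟩
    have hip : i < p := Fin.lt_def.2 (by omega)
    have hiq : i < q := Fin.lt_def.2 (by omega)
    have ap : ∀ l : Fin n, l ≠ i → ¬ adjD n l p := by
      intro l hl
      have hl' : l.val ≠ i.val := fun h' => hl (Fin.ext h')
      unfold adjD; omega
    have ap' : ∀ l : Fin n, l ≠ i → ¬ adjD n p l := by
      intro l hl
      have hl' : l.val ≠ i.val := fun h' => hl (Fin.ext h')
      unfold adjD; omega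
    have aq : ∀ l : Fin n, l ≠ i → ¬ adjD n l q := by
      intro l hl
      have hl' : l.val ≠ i.val := fun h' => hl (Fin.ext h')
      unfold adjD; omega
    have aq' : ∀ l : Fin n, l ≠ i → ¬ adjD n q l := by
      intro l hl
      have hl' : l.val ≠ i.val := fun h' => hl (Fin.ext h')
      unfold adjD; omega
    have hb := s6t_base h2 (Matrix.mulVecLin (M.a i p)) (Matrix.mulVecLin (M.a i q))
      (Matrix.mulVecLin (M.a p i)) (Matrix.mulVecLin (M.a q i))
      (by rw [← Matrix.mulVecLin_mul, s6t_leaf_rel M i p hip ap, Matrix.mulVecLin_zero])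
      (by rw [← Matrix.mulVecLin_mul, s6t_leaf_rel M i q hiq aq, Matrix.mulVecLin_zero])
      (s6t_leaf_ker M i p ap' (h0 p hip)) (s6t_leaf_ker M i q aq' (h0 q hiq)) e
    rw [← Matrix.mulVecLin_mul, ← Matrix.mulVecLin_mul, ← Matrix.mulVecLin_add,
      ← s6t_retR_fork M i p q hi3 hp hq, ← s6t_ret_eq, ← s6t_kerR_fork M i p q hi3 hp hq] at hb
    exact hb
  | succ m ih =>
    intro i hi h0
    obtain ⟨j, hj⟩ : ∃ j : Fin n, i.val + 1 = j.val := ⟨⟨i.val + 1, by omega⟩, rfl⟩
    have hj3 : j.val + 3 ≤ n := by omega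
    have hij : i < j := Fin.lt_def.2 (by omega)
    have hJ := ih j (by omega) fun l hl => h0 l (hij.trans hl)
    have hs := s6t_step (Matrix.mulVecLin (M.a i j)) (Matrix.mulVecLin (M.a j i)) e (M.s6tKerR j)
      (by rw [← s6t_kerL_succ M i j hj hj3, ← s6t_soc_eq]; exact h0 j hij)
      (by rw [← Matrix.mulVecLin_mul, ← s6t_ret_succ M i j hj hj3]; exact hJ)
    rw [← Matrix.mulVecLin_mul, ← s6t_retR_succ M i j hj hj3, ← s6t_ret_eq,
      ← s6t_kerR_succ M i j hj hj3] at hs
    exact hs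

/-- L-S6-5a: the return maps at trunk vertices are nilpotent. -/
theorem s6_ret_nilp (M : PiMod k n d) (c : Fin n) (hc : c.val + 3 ≤ n) : IsNilpotent (M.ret c) := by
  have key : ∀ m : ℕ, ∀ c : Fin n, c.val = m → c.val + 3 ≤ n → M.ret c ^ (m + 1) = 0 := by
    intro m
    induction m with
    | zero =>
      intro c hc0 _
      have : M.ret c = 0 := by
        unfold PiMod.ret
        refine Finset.sum_eq_zero fun j _ => ?_
        rw [if_neg (by rw [Fin.lt_def]; omega)]
      rw [this]; simp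
    | succ m ih =>
      intro c hcm hc3
      obtain ⟨i, hi⟩ : ∃ i : Fin n, i.val + 1 = c.val := ⟨⟨m, by omega⟩, by simp; omega⟩
      have h1 := ih i (by omega) (by omega)
      rw [s6t_ret_succ M i c hi hc3, s6t_pow_succ, ← s6t_retR_succ M i c hi hc3, ← s6t_ret_eq, h1]
      simp
  exact ⟨c.val + 1, key c.val c rfl hc⟩

set_option linter.unusedVariables false in
/-- L-S6-5b -/
theorem s6_kerL_le (M : PiMod k n d) (c : Fin n) (hc : c.val + 3 ≤ n) :
    M.kerL c ≤ LinearMap.ker (Matrix.mulVecLin (M.ret c)) := by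
  intro x hx
  rw [LinearMap.mem_ker, Matrix.mulVecLin_apply]
  unfold PiMod.ret
  rw [Matrix.sum_mulVec]
  refine Finset.sum_eq_zero fun j _ => ?_
  split_ifs with h
  · have h1 : x ∈ LinearMap.ker (Matrix.mulVecLin (M.a c j)) := by
      unfold PiMod.kerL at hx
      have := (Submodule.mem_iInf _).1 hx j
      rwa [if_pos h] at this
    rw [LinearMap.mem_ker, Matrix.mulVecLin_apply] at h1
    rw [← Matrix.mulVec_mulVec, h1, Matrix.mulVec_zero]
  · rw [Matrix.zero_mulVec]

/-- L-S6-5c: threshold bound (Lemma 6.3, socle form). -/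
theorem s6_threshold (h2 : (2 : k) ≠ 0) (M : PiMod k n d) (c : Fin n) (hc : c.val + 3 ≤ n)
    (h0 : ∀ i : Fin n, c < i → M.soc i = 0) (e : ℕ) :
    2 * finrank k (M.kerL c ⊓ hiSoc (Matrix.mulVecLin (M.ret c)) e : Submodule k (Fin (d c) → k))
      ≤ 2 * M.soc c + finrank k (hiSoc (Matrix.mulVecLin (M.ret c)) e) := by
  have h1 := s6t_claim h2 M e (n - (c.val + 3)) c (by omega) h0
  have h3 := s6_vertex (M.kerL c) (M.s6tKerR c) (hiSoc (Matrix.mulVecLin (M.ret c)) e)
  rw [← s6t_soc_eq] at h3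
  omega

end Claimed.Agent.R282
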