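import Claimed.Agent.R282.K2.S6.Defs

/-!
# Row 282, S6, leaf L-S6-2: the space of anticommuting maps (plan: header of `K2/S6.lean`, item (2)(a),(b)).  PROVED by helper283 (auxiliary names `s6a_`).
-/

set_option autoImplicit false

namespace Claimed.Agent.R282

open Module

variable {k : Type} [Field k]

/-- the explicit anticommuting map -/
theorem s6a_anti {V : Type} [AddCommGroup V] [Module k V] (t : V →ₗ[k] V) (e : ℕ) (w : V)
    (φ : V →ₗ[k] k) (hw : t ((t ^ e) w) = 0) (hφ : ∀ y, φ ((t ^ (e + 1)) y) = 0) :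
    (∑ s ∈ Finset.range (e + 1), ((-1 : k) ^ s) •
      (φ ∘ₗ (t ^ s)).smulRight ((t ^ (e - s)) w)) ∈ antiComm t := by
  show _ ∘ₗ t + t ∘ₗ _ = 0
  ext y
  simp only [LinearMap.add_apply, LinearMap.comp_apply, LinearMap.sum_apply, LinearMap.smul_apply,
    LinearMap.smulRight_apply, map_sum, map_smul, LinearMap.zero_apply]
  rw [Finset.sum_range_succ, Finset.sum_range_succ' (fun s => (-1 : k) ^ s • φ ((t ^ s) y) •
    t ((t ^ (e - s)) w))]
  have h1 : φ ((t ^ e) (t y)) = 0 := by
    have := hφ y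
    rwa [pow_succ, Module.End.mul_apply] at this
  rw [h1, Nat.sub_zero, hw]
  simp only [zero_smul, smul_zero, add_zero]
  rw [← Finset.sum_add_distrib]
  refine Finset.sum_eq_zero fun s hs => ?_
  have hs' : s < e := Finset.mem_range.1 hs
  have e1 : (t ^ (s + 1)) y = (t ^ s) (t y) := by rw [pow_succ, Module.End.mul_apply]
  have e2 : t ((t ^ (e - (s + 1))) w) = (t ^ (e - s)) w := by
    have : e - s = (e - (s + 1)) + 1 := by omega
    rw [this, pow_succ', Module.End.mul_apply]
  rw [e1, e2, pow_succ]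
  simp

/-- L-S6-2a: evaluation at a vector of exact height `e` is onto the high socle. -/
theorem s6_eval_onto {V : Type} [AddCommGroup V] [Module k V] [FiniteDimensional k V]
    (t : V →ₗ[k] V) (e : ℕ) (x z : V) (hx : x ∈ hiSoc t e)
    (hx' : x ∉ LinearMap.range (t ^ (e + 1))) (hz : z ∈ hiSoc t e) :
    ∃ θ ∈ antiComm t, θ x = z := by
  obtain ⟨f, hfx, hf⟩ := Submodule.exists_le_ker_of_notMem hx'
  obtain ⟨w, hw⟩ := hz.2
  have hzt : t z = 0 := hz.1
  have hxt : t x = 0 := hx.1
  refine ⟨_, s6a_anti t e w ((f x)⁻¹ • f) (by rw [hw]; exact hzt) (fun y => ?_), ?_⟩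
  · have : (t ^ (e + 1)) y ∈ LinearMap.ker f := hf ⟨y, rfl⟩
    rw [LinearMap.smul_apply, LinearMap.mem_ker.1 this, smul_zero]
  · simp only [LinearMap.sum_apply, LinearMap.smul_apply, LinearMap.smulRight_apply,
      LinearMap.comp_apply]
    rw [Finset.sum_range_succ']
    have h0 : ∀ s, (t ^ (s + 1)) x = 0 := by
      intro s
      rw [pow_succ, Module.End.mul_apply, hxt, map_zero]
    simp only [h0, map_zero, smul_zero, zero_smul, Finset.sum_const_zero, zero_add, pow_zero,
      Module.End.one_apply, Nat.sub_zero, one_smul, hw]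
    rw [smul_eq_mul, inv_mul_cancel₀ hfx, one_smul]

theorem s6a_comm_pow {V : Type} [AddCommGroup V] [Module k V] (t θ : V →ₗ[k] V)
    (hθ : θ ∈ antiComm t) (e : ℕ) (y : V) : θ ((t ^ e) y) = (-1 : k) ^ e • (t ^ e) (θ y) := by
  have h1 : ∀ y, θ (t y) = - t (θ y) := by
    intro y
    have h : θ ∘ₗ t + t ∘ₗ θ = 0 := hθ
    have := congrArg (fun f : V →ₗ[k] V => f y) h
    simp only [LinearMap.add_apply, LinearMap.comp_apply, LinearMap.zero_apply] at this
    exact eq_neg_of_add_eq_zero_left this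
  induction e generalizing y with
  | zero => simp
  | succ e ih =>
    rw [pow_succ, Module.End.mul_apply, ih, h1, map_neg, pow_succ (-1 : k), Module.End.mul_apply]
    simp

/-- L-S6-2b: `Θ` preserves the high socles. -/
theorem s6_anti_pres {V : Type} [AddCommGroup V] [Module k V] (t : V →ₗ[k] V) (e : ℕ)
    (θ : V →ₗ[k] V) (hθ : θ ∈ antiComm t) (x : V) (hx : x ∈ hiSoc t e) : θ x ∈ hiSoc t e := by
  obtain ⟨h1, ⟨y, hy⟩⟩ := hx
  constructor
  · have := s6a_comm_pow t θ hθ 1 x
    rw [pow_one, pow_one, LinearMap.mem_ker.1 h1, map_zero] at this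
    show θ x ∈ LinearMap.ker t
    rw [LinearMap.mem_ker]
    have h2 : (-1 : k) • t (θ x) = 0 := this.symm
    simpa using h2
  · rw [← hy, s6a_comm_pow t θ hθ e y]
    exact Submodule.smul_mem _ _ ⟨θ y, rfl⟩

end Claimed.Agent.R282
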