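import Claimed.Agent.R282.K2.DDefs

/-!
# Row 282, S6: definitions (plan: header of `K2/S6.lean`).  `PiMod.dual` (transposed module) is in `K2/DDefs.lean`.
-/

set_option autoImplicit false

namespace Claimed.Agent.R282

open Module

section Abstract

variable {k : Type} [Field k]

/-- the high socle `F t (e+1) = ker t ⊓ range (t^e)` -/
def hiSoc {V : Type} [AddCommGroup V] [Module k V] (t : V →ₗ[k] V) (e : ℕ) : Submodule k V :=
  LinearMap.ker t ⊓ LinearMap.range (t ^ e)

/-- the space `Θ` of endomorphisms anticommuting with `t` -/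
def antiComm {V : Type} [AddCommGroup V] [Module k V] (t : V →ₗ[k] V) :
    Submodule k (V →ₗ[k] V) where
  carrier := {θ | θ ∘ₗ t + t ∘ₗ θ = 0}
  add_mem' := by
    intro a b ha hb
    simp only [Set.mem_ofPred_eq] at ha hb ⊢
    rw [LinearMap.add_comp, LinearMap.comp_add, add_add_add_comm, ha, hb, add_zero]
  zero_mem' := by simp
  smul_mem' := by
    intro c a ha
    simp only [Set.mem_ofPred_eq] at ha ⊢
    rw [LinearMap.smul_comp, LinearMap.comp_smul, ← smul_add, ha, smul_zero]

end Abstract

section Module

variable {k : Type} [Field k] {n : ℕ} {d : Fin n → ℕ}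

/-- the return map `t_c = u v` at the vertex `c` through its LEFT neighbour(s):
`∑_(j < c) a j c * a c j` (only `j = c - 1` contributes for a trunk vertex). -/
def PiMod.ret (M : PiMod k n d) (c : Fin n) : Matrix (Fin (d c)) (Fin (d c)) k :=
  ∑ j, if j < c then M.a j c * M.a c j else 0

/-- the kernel of the arrows to the left neighbour(s) -/
def PiMod.kerL (M : PiMod k n d) (c : Fin n) : Submodule k (Fin (d c) → k) :=
  ⨅ j, if j < c then LinearMap.ker (Matrix.mulVecLin (M.a c j)) else ⊤

/-- the return map of the transposed module -/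
theorem s6_dual_ret (M : PiMod k n d) (c : Fin n) : M.dual.ret c = (M.ret c).transpose := by
  unfold PiMod.ret
  rw [Matrix.transpose_sum]
  refine Finset.sum_congr rfl fun j _ => ?_
  split_ifs
  · rw [Matrix.transpose_mul]; rfl
  · rw [Matrix.transpose_zero]

end Module

end Claimed.Agent.R282
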