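import Claimed.Agent.R282.K2.S6.Defs

/-!
# Row 282, S6, leaf L-S6-1: edge, vertex and leaf lemmas (plan: header of `K2/S6.lean`, item (1))
-/

set_option autoImplicit false

namespace Claimed.Agent.R282

open Module

variable {k : Type} [Field k]

/-- rank-nullity for the restriction of `f` to `A` -/
theorem s6l_rank_nullity {X Y : Type} [AddCommGroup X] [Module k X] [FiniteDimensional k X]
    [AddCommGroup Y] [Module k Y] (f : X →ₗ[k] Y) (A : Submodule k X) :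
    finrank k A = finrank k (LinearMap.ker f ⊓ A : Submodule k X) + finrank k (A.map f) := by
  have h1 := LinearMap.finrank_range_add_finrank_ker (f.domRestrict A)
  rw [LinearMap.range_domRestrict] at h1
  have h2 : finrank k (LinearMap.ker (f.domRestrict A)) = finrank k (LinearMap.ker f ⊓ A : Submodule k X) := by
    rw [LinearMap.ker_domRestrict, ← Submodule.finrank_map_subtype_eq, Submodule.map_comap_subtype,
      inf_comm]
  omega

theorem s6l_pow_comm {X Y : Type} [AddCommGroup X] [Module k X] [AddCommGroup Y] [Module k Y]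
    (u : X →ₗ[k] Y) (v : Y →ₗ[k] X) (e : ℕ) (w : X) :
    u (((v ∘ₗ u) ^ e) w) = ((u ∘ₗ v) ^ e) (u w) := by
  induction e generalizing w with
  | zero => simp
  | succ e ih =>
    rw [pow_succ, pow_succ, Module.End.mul_apply, Module.End.mul_apply, ih]
    rfl

theorem s6l_edge_half {X Y : Type} [AddCommGroup X] [Module k X] [FiniteDimensional k X]
    [AddCommGroup Y] [Module k Y] [FiniteDimensional k Y] (u : X →ₗ[k] Y) (v : Y →ₗ[k] X) (e : ℕ) :
    finrank k (hiSoc (v ∘ₗ u) e) ≤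
        finrank k (LinearMap.ker u ⊓ hiSoc (v ∘ₗ u) e : Submodule k X)
          + finrank k (LinearMap.ker v ⊓ hiSoc (u ∘ₗ v) e : Submodule k Y) := by
  rw [s6l_rank_nullity u (hiSoc (v ∘ₗ u) e)]
  refine Nat.add_le_add_left (Submodule.finrank_mono ?_) _
  rintro _ ⟨x, ⟨hx1, w, hw⟩, rfl⟩
  have hx1' : v (u x) = 0 := hx1
  refine ⟨hx1', ?_, u w, ?_⟩
  · show u (v (u x)) = 0
    rw [hx1', map_zero]
  · show ((u ∘ₗ v) ^ e) (u w) = u x
    rw [← s6l_pow_comm, hw]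

/-- L-S6-1a -/
theorem s6_edge {X Y : Type} [AddCommGroup X] [Module k X] [FiniteDimensional k X]
    [AddCommGroup Y] [Module k Y] [FiniteDimensional k Y] (u : X →ₗ[k] Y) (v : Y →ₗ[k] X) (e : ℕ) :
    finrank k (hiSoc (v ∘ₗ u) e) ≤
        finrank k (LinearMap.ker u ⊓ hiSoc (v ∘ₗ u) e : Submodule k X)
          + finrank k (LinearMap.ker v ⊓ hiSoc (u ∘ₗ v) e : Submodule k Y) ∧
    finrank k (hiSoc (u ∘ₗ v) e) ≤
        finrank k (LinearMap.ker u ⊓ hiSoc (v ∘ₗ u) e : Submodule k X)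
          + finrank k (LinearMap.ker v ⊓ hiSoc (u ∘ₗ v) e : Submodule k Y) := by
  refine ⟨s6l_edge_half u v e, ?_⟩
  rw [add_comm]
  exact s6l_edge_half v u e

/-- L-S6-1b -/
theorem s6_vertex {X : Type} [AddCommGroup X] [Module k X] [FiniteDimensional k X]
    (K₁ K₂ F : Submodule k X) :
    finrank k (K₁ ⊓ F : Submodule k X) + finrank k (K₂ ⊓ F : Submodule k X)
      ≤ finrank k F + finrank k (K₁ ⊓ K₂ : Submodule k X) := by
  rw [← Submodule.finrank_sup_add_finrank_inf_eq]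
  refine Nat.add_le_add (Submodule.finrank_mono ?_) (Submodule.finrank_mono ?_)
  · exact sup_le inf_le_right inf_le_right
  · exact le_inf (inf_le_left.trans inf_le_left) (inf_le_right.trans inf_le_left)

/-- L-S6-1c: `t` on `W₁ × W₂` with vanishing diagonal blocks. -/
theorem s6_leaf {W₁ W₂ : Type} [AddCommGroup W₁] [Module k W₁] [FiniteDimensional k W₁]
    [AddCommGroup W₂] [Module k W₂] [FiniteDimensional k W₂] (h2 : (2 : k) ≠ 0)
    (t : (W₁ × W₂) →ₗ[k] (W₁ × W₂))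
    (h₁ : ∀ x : W₁, (t (x, 0)).1 = 0) (h₂ : ∀ y : W₂, (t (0, y)).2 = 0) (e : ℕ)
    (Z : Submodule k (W₁ × W₂)) (hZ : Z ≤ hiSoc t e) :
    2 * finrank k Z ≤
      finrank k (Z ⊓ LinearMap.range (LinearMap.inl k W₁ W₂) : Submodule k (W₁ × W₂))
      + finrank k (Z ⊓ LinearMap.range (LinearMap.inr k W₁ W₂) : Submodule k (W₁ × W₂))
      + finrank k (hiSoc t e) := by
  -- the grading involution
  let σ : (W₁ × W₂) →ₗ[k] (W₁ × W₂) := LinearMap.prodMap LinearMap.id (-LinearMap.id)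
  have hσ : ∀ w : W₁ × W₂, σ w = (w.1, -w.2) := fun w => rfl
  have hanti : ∀ w : W₁ × W₂, t (σ w) = - σ (t w) := by
    intro w
    have e1 : w = (w.1, 0) + (0, w.2) := by simp
    have e2 : σ w = (w.1, 0) - (0, w.2) := by rw [hσ]; simp
    have a1 : σ (t (w.1, 0)) = - t (w.1, 0) := by
      rw [hσ]
      refine Prod.ext ?_ rfl
      simp [h₁]
    have a2 : σ (t (0, w.2)) = t (0, w.2) := by
      rw [hσ]
      refine Prod.ext rfl ?_
      simp [h₂]
    rw [e2, map_sub]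
    conv_rhs => rw [e1, map_add, map_add, a1, a2]
    abel
  have hrange : ∀ (m : ℕ) (w : W₁ × W₂), ∃ w', σ ((t ^ m) w) = (t ^ m) w' := by
    intro m
    induction m with
    | zero => intro w; exact ⟨σ w, by simp⟩
    | succ m ih =>
      intro w
      obtain ⟨w', hw'⟩ := ih w
      refine ⟨-w', ?_⟩
      rw [pow_succ', Module.End.mul_apply, Module.End.mul_apply, map_neg, map_neg, ← hw', hanti,
        neg_neg]
  have hF : ∀ w ∈ hiSoc t e, σ w ∈ hiSoc t e := by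
    rintro w ⟨hw1, w0, hw0⟩
    have hw1' : t w = 0 := hw1
    refine ⟨?_, ?_⟩
    · show t (σ w) = 0
      rw [hanti, hw1', map_zero, neg_zero]
    · obtain ⟨w', hw'⟩ := hrange e w0
      exact ⟨w', by rw [← hw', hw0]⟩
  have hp1 : ∀ w ∈ hiSoc t e, ((w.1, 0) : W₁ × W₂) ∈ hiSoc t e := by
    intro w hw
    have : ((w.1, 0) : W₁ × W₂) = (2 : k)⁻¹ • (w + σ w) := by
      rw [hσ]
      refine Prod.ext ?_ ?_
      · show w.1 = (2 : k)⁻¹ • (w.1 + w.1)
        rw [← two_smul k w.1, smul_smul, inv_mul_cancel₀ h2, one_smul]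
      · show (0 : W₂) = (2 : k)⁻¹ • (w.2 + -w.2)
        rw [add_neg_cancel, smul_zero]
    rw [this]
    exact Submodule.smul_mem _ _ (Submodule.add_mem _ hw (hF w hw))
  have hp2 : ∀ w ∈ hiSoc t e, ((0, w.2) : W₁ × W₂) ∈ hiSoc t e := by
    intro w hw
    have : ((0, w.2) : W₁ × W₂) = w - (w.1, 0) := by
      refine Prod.ext ?_ ?_
      · show (0 : W₁) = w.1 - w.1
        rw [sub_self]
      · show w.2 = w.2 - 0
        rw [sub_zero]
    rw [this]
    exact Submodule.sub_mem _ hw (hp1 w hw)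
  -- the two projections
  have r1 := s6l_rank_nullity (LinearMap.inl k W₁ W₂ ∘ₗ LinearMap.fst k W₁ W₂) Z
  have r2 := s6l_rank_nullity (LinearMap.inr k W₁ W₂ ∘ₗ LinearMap.snd k W₁ W₂) Z
  have k1 : (LinearMap.ker (LinearMap.inl k W₁ W₂ ∘ₗ LinearMap.fst k W₁ W₂) ⊓ Z : Submodule k (W₁ × W₂))
      ≤ Z ⊓ LinearMap.range (LinearMap.inr k W₁ W₂) := by
    rintro w ⟨hw1, hw2⟩
    refine ⟨hw2, w.2, ?_⟩
    have : ((w.1, 0) : W₁ × W₂) = 0 := hw1
    have h0 : w.1 = 0 := congrArg Prod.fst this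
    exact Prod.ext h0.symm rfl
  have k2 : (LinearMap.ker (LinearMap.inr k W₁ W₂ ∘ₗ LinearMap.snd k W₁ W₂) ⊓ Z : Submodule k (W₁ × W₂))
      ≤ Z ⊓ LinearMap.range (LinearMap.inl k W₁ W₂) := by
    rintro w ⟨hw1, hw2⟩
    refine ⟨hw2, w.1, ?_⟩
    have : ((0, w.2) : W₁ × W₂) = 0 := hw1
    have h0 : w.2 = 0 := congrArg Prod.snd this
    exact Prod.ext rfl h0.symm
  have m1 : Z.map (LinearMap.inl k W₁ W₂ ∘ₗ LinearMap.fst k W₁ W₂)
      ≤ hiSoc t e ⊓ LinearMap.range (LinearMap.inl k W₁ W₂) := by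
    rintro _ ⟨w, hw, rfl⟩
    exact ⟨hp1 w (hZ hw), w.1, rfl⟩
  have m2 : Z.map (LinearMap.inr k W₁ W₂ ∘ₗ LinearMap.snd k W₁ W₂)
      ≤ hiSoc t e ⊓ LinearMap.range (LinearMap.inr k W₁ W₂) := by
    rintro _ ⟨w, hw, rfl⟩
    exact ⟨hp2 w (hZ hw), w.2, rfl⟩
  have s := Submodule.finrank_sup_add_finrank_inf_eq
    (hiSoc t e ⊓ LinearMap.range (LinearMap.inl k W₁ W₂))
    (hiSoc t e ⊓ LinearMap.range (LinearMap.inr k W₁ W₂))
  have s1 : finrank k ((hiSoc t e ⊓ LinearMap.range (LinearMap.inl k W₁ W₂)) ⊔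
      (hiSoc t e ⊓ LinearMap.range (LinearMap.inr k W₁ W₂)) : Submodule k (W₁ × W₂))
      ≤ finrank k (hiSoc t e) := Submodule.finrank_mono (sup_le inf_le_left inf_le_left)
  have s2 : ((hiSoc t e ⊓ LinearMap.range (LinearMap.inl k W₁ W₂)) ⊓
      (hiSoc t e ⊓ LinearMap.range (LinearMap.inr k W₁ W₂)) : Submodule k (W₁ × W₂)) = ⊥ := by
    rw [eq_bot_iff]
    rintro w ⟨⟨-, x, hx⟩, ⟨-, y, hy⟩⟩
    have a : w.2 = 0 := by rw [← hx]; rfl
    have b : w.1 = 0 := by rw [← hy]; rfl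
    exact Prod.ext b a
  rw [s2, finrank_bot, add_zero] at s
  have f1 := Submodule.finrank_mono k1
  have f2 := Submodule.finrank_mono k2
  have f3 := Submodule.finrank_mono m1
  have f4 := Submodule.finrank_mono m2
  omega

end Claimed.Agent.R282
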