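import Claimed.Agent.R282.K2.S6.Anti

/-!
# Row 282, S6, leaf L-S6-3: a generic anticommuting map by a first moment (plan: header of `K2/S6.lean`, item (2))
-/

set_option autoImplicit false

namespace Claimed.Agent.R282

open Module

section S6T
variable {k : Type} [Field k] {m : ℕ}

/-- rank-nullity relative to a submodule -/
theorem s6q_rank_nullity {W V : Type} [AddCommGroup W] [Module k W] [FiniteDimensional k W]
    [AddCommGroup V] [Module k V] (g : W →ₗ[k] V) (Θ : Submodule k W) :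
    finrank k (Θ.map g) + finrank k (Θ ⊓ LinearMap.ker g : Submodule k W) = finrank k Θ := by
  have h := LinearMap.finrank_range_add_finrank_ker (g.domRestrict Θ)
  rw [LinearMap.range_domRestrict, LinearMap.ker_domRestrict] at h
  rw [← h, ← Submodule.map_comap_subtype, Submodule.finrank_map_subtype_eq]

theorem s6q_fibre_dim {W V : Type} [AddCommGroup W] [Module k W] [FiniteDimensional k W]
    [AddCommGroup V] [Module k V] (g : W →ₗ[k] V) (Θ : Submodule k W) (K : Submodule k V) :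
    finrank k (Θ ⊓ K.comap g : Submodule k W) + finrank k (Θ.map g)
      = finrank k Θ + finrank k (K ⊓ Θ.map g : Submodule k V) := by
  have h1 := s6q_rank_nullity g Θ
  have h2 := s6q_rank_nullity g (Θ ⊓ K.comap g)
  have h3 : (Θ ⊓ K.comap g) ⊓ LinearMap.ker g = Θ ⊓ LinearMap.ker g := by
    rw [inf_assoc]
    congr 1
    refine inf_eq_right.2 ?_
    intro w hw
    rw [Submodule.mem_comap, LinearMap.mem_ker.1 hw]
    exact K.zero_mem
  have h4 : (Θ ⊓ K.comap g).map g = K ⊓ Θ.map g := by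
    ext y
    constructor
    · rintro ⟨w, ⟨hw1, hw2⟩, rfl⟩
      exact ⟨hw2, ⟨w, hw1, rfl⟩⟩
    · rintro ⟨hy, ⟨w, hw, rfl⟩⟩
      exact ⟨w, ⟨hw, hy⟩, rfl⟩
  rw [h3, h4] at h2
  omega

/-- the space of matrices anticommuting with `t` -/
def s6qTh (t : Matrix (Fin m) (Fin m) k) : Submodule k (Matrix (Fin m) (Fin m) k) where
  carrier := {θ | θ * t + t * θ = 0}
  add_mem' := by
    intro a b ha hb
    simp only [Set.mem_ofPred_eq] at ha hb ⊢
    rw [add_mul, mul_add, add_add_add_comm, ha, hb, add_zero]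
  zero_mem' := by simp
  smul_mem' := by
    intro c a ha
    simp only [Set.mem_ofPred_eq] at ha ⊢
    rw [Matrix.smul_mul, Matrix.mul_smul, ← smul_add, ha, smul_zero]

theorem s6q_mem_Th (t θ : Matrix (Fin m) (Fin m) k) : θ ∈ s6qTh t ↔ θ * t + t * θ = 0 := Iff.rfl

theorem s6q_mem_iff (t θ : Matrix (Fin m) (Fin m) k) :
    θ ∈ s6qTh t ↔ Matrix.mulVecLin θ ∈ antiComm (Matrix.mulVecLin t) := by
  rw [s6q_mem_Th]
  change _ ↔ Matrix.mulVecLin θ ∘ₗ Matrix.mulVecLin t + Matrix.mulVecLin t ∘ₗ Matrix.mulVecLin θ = 0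
  rw [← Matrix.mulVecLin_mul, ← Matrix.mulVecLin_mul, ← Matrix.mulVecLin_add]
  constructor
  · intro h
    rw [h, Matrix.mulVecLin_zero]
  · intro h
    have := Matrix.toLin'.injective (a₁ := θ * t + t * θ) (a₂ := 0)
      (by rw [Matrix.toLin'_apply', h, map_zero])
    exact this

/-- evaluation at `x` -/
def s6qEv (x : Fin m → k) : Matrix (Fin m) (Fin m) k →ₗ[k] (Fin m → k) :=
  (LinearMap.applyₗ x).comp (Matrix.toLin' : Matrix (Fin m) (Fin m) k ≃ₗ[k] _).toLinearMap

theorem s6qEv_apply (x : Fin m → k) (θ : Matrix (Fin m) (Fin m) k) : s6qEv x θ = θ.mulVec x := by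
  simp [s6qEv]

theorem s6q_map_ev (t : Matrix (Fin m) (Fin m) k) (e : ℕ) (x : Fin m → k)
    (hx : x ∈ hiSoc (Matrix.mulVecLin t) e)
    (hx' : x ∉ LinearMap.range ((Matrix.mulVecLin t) ^ (e + 1))) :
    (s6qTh t).map (s6qEv x) = hiSoc (Matrix.mulVecLin t) e := by
  ext z
  constructor
  · rintro ⟨θ, hθ, rfl⟩
    rw [s6qEv_apply, ← Matrix.mulVecLin_apply]
    exact s6_anti_pres _ e _ ((s6q_mem_iff t θ).1 hθ) x hx
  · intro hz
    obtain ⟨θ', hθ', rfl⟩ := s6_eval_onto _ e x z hx hx' hz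
    refine ⟨LinearMap.toMatrix' θ', ?_, ?_⟩
    · refine (s6q_mem_iff t _).2 ?_
      rw [← Matrix.toLin'_apply' (LinearMap.toMatrix' θ'), Matrix.toLin'_toMatrix']
      exact hθ'
    · rw [s6qEv_apply, ← Matrix.toLin'_apply, Matrix.toLin'_toMatrix']

theorem s6q_mulVecLin_pow (t : Matrix (Fin m) (Fin m) k) (j : ℕ) :
    (Matrix.mulVecLin t) ^ j = Matrix.mulVecLin (t ^ j) := by
  induction j with
  | zero => simp [Module.End.one_eq_id]
  | succ j ih => rw [pow_succ, pow_succ, ih, Matrix.mulVecLin_mul, Module.End.mul_eq_comp]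

theorem s6q_pow_card (t : Matrix (Fin m) (Fin m) k) (ht : IsNilpotent t) :
    (Matrix.mulVecLin t) ^ m = 0 := by
  have hT : IsNilpotent (Matrix.mulVecLin t : Module.End k (Fin m → k)) := by
    obtain ⟨n, hn⟩ := ht
    exact ⟨n, by rw [s6q_mulVecLin_pow, hn, Matrix.mulVecLin_zero]⟩
  have h1 := hT.charpoly_eq_X_pow_finrank
  have h2 := LinearMap.aeval_self_charpoly (Matrix.mulVecLin t : Module.End k (Fin m → k))
  rw [h1, Module.finrank_fin_fun] at h2
  simpa using h2

theorem s6q_height (t : Matrix (Fin m) (Fin m) k) (ht : IsNilpotent t) (x : Fin m → k)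
    (hx : x ∈ LinearMap.ker (Matrix.mulVecLin t)) (hx0 : x ≠ 0) :
    ∃ e, e < m ∧ x ∈ hiSoc (Matrix.mulVecLin t) e ∧
      x ∉ LinearMap.range ((Matrix.mulVecLin t) ^ (e + 1)) := by
  classical
  have hex : ∃ j, x ∉ LinearMap.range ((Matrix.mulVecLin t) ^ j) := by
    refine ⟨m, ?_⟩
    rw [s6q_pow_card t ht, LinearMap.range_zero, Submodule.mem_bot]
    exact hx0
  have hj0 : Nat.find hex ≠ 0 := by
    intro h0
    have := Nat.find_spec hex
    rw [h0, pow_zero] at this
    exact this ⟨x, rfl⟩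
  have hjm : Nat.find hex ≤ m := by
    refine Nat.find_min' hex ?_
    rw [s6q_pow_card t ht, LinearMap.range_zero, Submodule.mem_bot]
    exact hx0
  refine ⟨Nat.find hex - 1, by omega, ⟨hx, ?_⟩, ?_⟩
  · have := Nat.find_min hex (m := Nat.find hex - 1) (by omega)
    exact not_not.1 this
  · have h1 : Nat.find hex - 1 + 1 = Nat.find hex := by omega
    rw [h1]
    exact Nat.find_spec hex

end S6T

section S6C
open Classical
variable {k : Type} [Field k] [Fintype k] {m : ℕ}

theorem s6q_card_filter {W : Type} [AddCommGroup W] [Module k W] [Fintype W] (P : Submodule k W) :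
    (Finset.univ.filter (fun w => w ∈ P)).card = Fintype.card k ^ finrank k P := by
  rw [← Module.card_eq_pow_finrank (K := k) (V := P), Fintype.card_subtype]

theorem s6q_sum (t : Matrix (Fin m) (Fin m) k) (ht : IsNilpotent t)
    (K₁ K₂ : Submodule k (Fin m → k)) (μ : ℕ)
    (hK₁ : K₁ ≤ LinearMap.ker (Matrix.mulVecLin t))
    (h : ∀ e, finrank k (K₁ ⊓ hiSoc (Matrix.mulVecLin t) e : Submodule k (Fin m → k))
      + finrank k (K₂ ⊓ hiSoc (Matrix.mulVecLin t) e : Submodule k (Fin m → k))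
      ≤ μ + finrank k (hiSoc (Matrix.mulVecLin t) e)) :
    ∑ θ ∈ Finset.univ.filter (fun θ => θ ∈ s6qTh t),
      ((Finset.univ.filter (fun x : Fin m → k => x ∈ K₁ ∧ x ≠ 0)).filter
        (fun x => θ.mulVec x ∈ K₂)).card
      ≤ m * Fintype.card k ^ (finrank k (s6qTh t) + μ) := by
  have hq : 0 < Fintype.card k := Fintype.card_pos
  have hsw := Finset.sum_card_bipartiteAbove_eq_sum_card_bipartiteBelow
    (s := Finset.univ.filter (fun θ => θ ∈ s6qTh t))
    (t := Finset.univ.filter (fun x : Fin m → k => x ∈ K₁ ∧ x ≠ 0))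
    (fun (θ : Matrix (Fin m) (Fin m) k) (x : Fin m → k) => θ.mulVec x ∈ K₂)
  unfold Finset.bipartiteAbove Finset.bipartiteBelow at hsw
  rw [hsw]
  have hex : ∀ x : Fin m → k, x ∈ K₁ ∧ x ≠ 0 → ∃ e, e < m ∧ x ∈ hiSoc (Matrix.mulVecLin t) e ∧
      x ∉ LinearMap.range ((Matrix.mulVecLin t) ^ (e + 1)) :=
    fun x hx => s6q_height t ht x (hK₁ hx.1) hx.2
  choose! hgt hgt1 hgt2 hgt3 using hex
  rw [← Finset.sum_fiberwise_of_maps_to (g := hgt) (t := Finset.range m)
    (fun x hx => Finset.mem_range.2 (hgt1 x (Finset.mem_filter.1 hx).2))]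
  have hmain : ∀ e ∈ Finset.range m,
      ∑ x ∈ (Finset.univ.filter (fun x : Fin m → k => x ∈ K₁ ∧ x ≠ 0)).filter (fun x => hgt x = e),
        ((Finset.univ.filter (fun θ => θ ∈ s6qTh t)).filter (fun θ => θ.mulVec x ∈ K₂)).card
      ≤ Fintype.card k ^ (finrank k (s6qTh t) + μ) := by
    intro e _
    have hcard : ((Finset.univ.filter (fun x : Fin m → k => x ∈ K₁ ∧ x ≠ 0)).filter
        (fun x => hgt x = e)).card ≤ Fintype.card k ^
          finrank k (K₁ ⊓ hiSoc (Matrix.mulVecLin t) e : Submodule k (Fin m → k)) := by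
      rw [← s6q_card_filter]
      refine Finset.card_le_card ?_
      intro x hx
      rw [Finset.mem_filter, Finset.mem_filter] at hx
      rw [Finset.mem_filter]
      refine ⟨Finset.mem_univ _, hx.1.2.1, ?_⟩
      rw [← hx.2]
      exact hgt2 x hx.1.2
    have hterm : ∀ x ∈ (Finset.univ.filter (fun x : Fin m → k => x ∈ K₁ ∧ x ≠ 0)).filter
        (fun x => hgt x = e),
        ((Finset.univ.filter (fun θ => θ ∈ s6qTh t)).filter (fun θ => θ.mulVec x ∈ K₂)).card
        ≤ Fintype.card k ^ (finrank k (s6qTh t) +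
          finrank k (K₂ ⊓ hiSoc (Matrix.mulVecLin t) e : Submodule k (Fin m → k))
          - finrank k (hiSoc (Matrix.mulVecLin t) e)) := by
      intro x hx
      rw [Finset.mem_filter, Finset.mem_filter] at hx
      have hx2 := hgt2 x hx.1.2
      have hx3 := hgt3 x hx.1.2
      rw [hx.2] at hx2 hx3
      have hd := s6q_fibre_dim (s6qEv x) (s6qTh t) K₂
      rw [s6q_map_ev t e x hx2 hx3] at hd
      have heq : (Finset.univ.filter (fun θ => θ ∈ s6qTh t)).filter (fun θ => θ.mulVec x ∈ K₂)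
          = Finset.univ.filter (fun θ => θ ∈ (s6qTh t ⊓ K₂.comap (s6qEv x) :
            Submodule k (Matrix (Fin m) (Fin m) k))) := by
        ext θ
        simp only [Finset.mem_filter, Finset.mem_univ, true_and, Submodule.mem_inf,
          Submodule.mem_comap, s6qEv_apply]
      rw [heq, s6q_card_filter]
      exact Nat.pow_le_pow_right hq (by omega)
    rcases Finset.eq_empty_or_nonempty ((Finset.univ.filter
        (fun x : Fin m → k => x ∈ K₁ ∧ x ≠ 0)).filter (fun x => hgt x = e)) with hemp | ⟨x, hx⟩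
    · rw [hemp, Finset.sum_empty]
      exact Nat.zero_le _
    have hTb : finrank k (hiSoc (Matrix.mulVecLin t) e) ≤ finrank k (s6qTh t) +
          finrank k (K₂ ⊓ hiSoc (Matrix.mulVecLin t) e : Submodule k (Fin m → k)) := by
      rw [Finset.mem_filter, Finset.mem_filter] at hx
      have hx2 := hgt2 x hx.1.2
      have hx3 := hgt3 x hx.1.2
      rw [hx.2] at hx2 hx3
      have hd := s6q_fibre_dim (s6qEv x) (s6qTh t) K₂
      rw [s6q_map_ev t e x hx2 hx3] at hd
      omega
    refine (Finset.sum_le_card_nsmul _ _ _ hterm).trans ?_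
    rw [smul_eq_mul]
    refine (Nat.mul_le_mul_right _ hcard).trans ?_
    rw [← pow_add]
    refine Nat.pow_le_pow_right hq ?_
    have := h e
    omega
  refine (Finset.sum_le_card_nsmul _ _ _ hmain).trans ?_
  rw [Finset.card_range, smul_eq_mul]

theorem s6q_bad (t : Matrix (Fin m) (Fin m) k) (ht : IsNilpotent t)
    (K₁ K₂ : Submodule k (Fin m → k)) (μ : ℕ)
    (hK₁ : K₁ ≤ LinearMap.ker (Matrix.mulVecLin t))
    (h : ∀ e, finrank k (K₁ ⊓ hiSoc (Matrix.mulVecLin t) e : Submodule k (Fin m → k))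
      + finrank k (K₂ ⊓ hiSoc (Matrix.mulVecLin t) e : Submodule k (Fin m → k))
      ≤ μ + finrank k (hiSoc (Matrix.mulVecLin t) e)) :
    (Fintype.card k - 1) * ((Finset.univ.filter (fun θ => θ ∈ s6qTh t)).filter (fun θ =>
      μ < finrank k (K₁ ⊓ K₂.comap (Matrix.mulVecLin θ) : Submodule k (Fin m → k)))).card
      ≤ m * (Finset.univ.filter (fun θ => θ ∈ s6qTh t)).card := by
  have hq : 0 < Fintype.card k := Fintype.card_pos
  obtain ⟨r, hr⟩ : ∃ r, Fintype.card k = r + 1 := ⟨Fintype.card k - 1, by omega⟩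
  have hsum := s6q_sum t ht K₁ K₂ μ hK₁ h
  have hlow : ∀ θ ∈ (Finset.univ.filter (fun θ => θ ∈ s6qTh t)).filter (fun θ =>
      μ < finrank k (K₁ ⊓ K₂.comap (Matrix.mulVecLin θ) : Submodule k (Fin m → k))),
      r * Fintype.card k ^ μ ≤ ((Finset.univ.filter (fun x : Fin m → k => x ∈ K₁ ∧ x ≠ 0)).filter
        (fun x => θ.mulVec x ∈ K₂)).card := by
    intro θ hθ
    rw [Finset.mem_filter] at hθ
    have heq : (Finset.univ.filter (fun x : Fin m → k => x ∈ K₁ ∧ x ≠ 0)).filter
        (fun x => θ.mulVec x ∈ K₂) = (Finset.univ.filter (fun x => x ∈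
          (K₁ ⊓ K₂.comap (Matrix.mulVecLin θ) : Submodule k (Fin m → k)))).erase 0 := by
      ext x
      simp only [Finset.mem_filter, Finset.mem_univ, true_and, Submodule.mem_inf,
        Submodule.mem_comap, Matrix.mulVecLin_apply, Finset.mem_erase]
      tauto
    rw [heq, Finset.card_erase_of_mem (by simp), s6q_card_filter]
    have h1 : Fintype.card k ^ (μ + 1) ≤ Fintype.card k ^
        finrank k (K₁ ⊓ K₂.comap (Matrix.mulVecLin θ) : Submodule k (Fin m → k)) :=
      Nat.pow_le_pow_right hq hθ.2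
    have h2 : 1 ≤ Fintype.card k ^ μ := Nat.one_le_pow _ _ hq
    have h3 : Fintype.card k ^ (μ + 1) = r * Fintype.card k ^ μ + Fintype.card k ^ μ := by
      rw [pow_succ]
      nth_rewrite 2 [hr]
      ring
    omega
  have h1 := Finset.card_nsmul_le_sum _ _ _ hlow
  have h2 : ∑ θ ∈ (Finset.univ.filter (fun θ => θ ∈ s6qTh t)).filter (fun θ =>
      μ < finrank k (K₁ ⊓ K₂.comap (Matrix.mulVecLin θ) : Submodule k (Fin m → k))),
      ((Finset.univ.filter (fun x : Fin m → k => x ∈ K₁ ∧ x ≠ 0)).filter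
        (fun x => θ.mulVec x ∈ K₂)).card ≤ ∑ θ ∈ Finset.univ.filter (fun θ => θ ∈ s6qTh t),
      ((Finset.univ.filter (fun x : Fin m → k => x ∈ K₁ ∧ x ≠ 0)).filter
        (fun x => θ.mulVec x ∈ K₂)).card :=
    Finset.sum_le_sum_of_subset (Finset.filter_subset _ _)
  have h3 := h1.trans (h2.trans hsum)
  rw [smul_eq_mul, pow_add, ← s6q_card_filter (s6qTh t)] at h3
  have hr' : Fintype.card k - 1 = r := by omega
  rw [hr']
  have hpos : 0 < Fintype.card k ^ μ := Nat.pow_pos hq
  refine Nat.le_of_mul_le_mul_right ?_ hpos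
  calc r * _ * Fintype.card k ^ μ = _ * (r * Fintype.card k ^ μ) := by ring
    _ ≤ _ := h3
    _ = _ := by ring

theorem s6q_transpose_mem (t θ : Matrix (Fin m) (Fin m) k) (h : θ ∈ s6qTh t) :
    θ.transpose ∈ s6qTh t.transpose := by
  rw [s6q_mem_Th] at h ⊢
  rw [← Matrix.transpose_mul, ← Matrix.transpose_mul, ← Matrix.transpose_add, add_comm, h,
    Matrix.transpose_zero]

theorem s6q_card_transpose (t : Matrix (Fin m) (Fin m) k) :
    (Finset.univ.filter (fun θ => θ ∈ s6qTh t.transpose)).card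
      ≤ (Finset.univ.filter (fun θ => θ ∈ s6qTh t)).card := by
  refine Finset.card_le_card_of_injOn Matrix.transpose ?_
    (fun a _ b _ hab => Matrix.transpose_injective hab)
  intro θ hθ
  rw [Finset.mem_coe, Finset.mem_filter] at hθ
  rw [Finset.mem_coe, Finset.mem_filter]
  have := s6q_transpose_mem _ _ hθ.2
  rw [Matrix.transpose_transpose] at this
  exact ⟨Finset.mem_univ _, this⟩

theorem s6q_bad_T (t : Matrix (Fin m) (Fin m) k) (ht : IsNilpotent t)
    (KT : Submodule k (Fin m → k)) (mT : ℕ)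
    (hKT : KT ≤ LinearMap.ker (Matrix.mulVecLin t.transpose))
    (hT : ∀ e, 2 * finrank k (KT ⊓ hiSoc (Matrix.mulVecLin t.transpose) e : Submodule k (Fin m → k))
      ≤ mT + finrank k (hiSoc (Matrix.mulVecLin t.transpose) e)) :
    (Fintype.card k - 1) * ((Finset.univ.filter (fun θ => θ ∈ s6qTh t)).filter (fun θ =>
      mT < finrank k (KT ⊓ KT.comap (Matrix.mulVecLin θ.transpose) :
        Submodule k (Fin m → k)))).card
      ≤ m * (Finset.univ.filter (fun θ => θ ∈ s6qTh t)).card := by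
  have ht' : IsNilpotent t.transpose := by
    obtain ⟨n, hn⟩ := ht
    exact ⟨n, by rw [← Matrix.transpose_pow, hn, Matrix.transpose_zero]⟩
  have h1 := s6q_bad t.transpose ht' KT KT mT hKT (fun e => by have := hT e; omega)
  have h2 : ((Finset.univ.filter (fun θ => θ ∈ s6qTh t)).filter (fun θ =>
      mT < finrank k (KT ⊓ KT.comap (Matrix.mulVecLin θ.transpose) :
        Submodule k (Fin m → k)))).card ≤
      ((Finset.univ.filter (fun θ => θ ∈ s6qTh t.transpose)).filter (fun θ =>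
      mT < finrank k (KT ⊓ KT.comap (Matrix.mulVecLin θ) : Submodule k (Fin m → k)))).card := by
    refine Finset.card_le_card_of_injOn Matrix.transpose ?_
      (fun a _ b _ hab => Matrix.transpose_injective hab)
    intro θ hθ
    rw [Finset.mem_coe, Finset.mem_filter, Finset.mem_filter] at hθ
    rw [Finset.mem_coe, Finset.mem_filter, Finset.mem_filter]
    exact ⟨⟨Finset.mem_univ _, s6q_transpose_mem _ _ hθ.1.2⟩, hθ.2⟩
  calc _ ≤ (Fintype.card k - 1) * _ := Nat.mul_le_mul_left _ h2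
    _ ≤ _ := h1
    _ ≤ _ := Nat.mul_le_mul_left _ (s6q_card_transpose t)

theorem s6q_isUnit (t θ : Matrix (Fin m) (Fin m) k) (ht : IsNilpotent t) (hθ : θ * t + t * θ = 0)
    (h0 : finrank k (LinearMap.ker (Matrix.mulVecLin t) ⊓
      (⊥ : Submodule k (Fin m → k)).comap (Matrix.mulVecLin θ) : Submodule k (Fin m → k)) = 0) :
    IsUnit θ := by
  rw [Submodule.finrank_eq_zero] at h0
  rw [← Matrix.mulVec_injective_iff_isUnit]
  have hstep : ∀ y : Fin m → k, θ.mulVec y = 0 → θ.mulVec (t.mulVec y) = 0 := by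
    intro y hy
    have h1 : (θ * t + t * θ).mulVec y = 0 := by rw [hθ, Matrix.zero_mulVec]
    rw [Matrix.add_mulVec, ← Matrix.mulVec_mulVec, ← Matrix.mulVec_mulVec, hy,
      Matrix.mulVec_zero, add_zero] at h1
    exact h1
  have hpow : ∀ (j : ℕ) (y : Fin m → k), θ.mulVec y = 0 → θ.mulVec ((t ^ j).mulVec y) = 0 := by
    intro j
    induction j with
    | zero => intro y hy; simpa using hy
    | succ j ih =>
      intro y hy
      rw [pow_succ', ← Matrix.mulVec_mulVec]
      exact hstep _ (ih y hy)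
  have hker : ∀ x : Fin m → k, θ.mulVec x = 0 → x = 0 := by
    intro x hx
    by_contra hx0
    have hex : ∃ j, (t ^ j).mulVec x = 0 := by
      obtain ⟨n, hn⟩ := ht
      exact ⟨n, by rw [hn, Matrix.zero_mulVec]⟩
    have hj0 : Nat.find hex ≠ 0 := by
      intro h
      have := Nat.find_spec hex
      rw [h, pow_zero, Matrix.one_mulVec] at this
      exact hx0 this
    have hy0 : (t ^ (Nat.find hex - 1)).mulVec x ≠ 0 := Nat.find_min hex (by omega)
    have hty : t.mulVec ((t ^ (Nat.find hex - 1)).mulVec x) = 0 := by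
      rw [Matrix.mulVec_mulVec, ← pow_succ']
      have h1 : Nat.find hex - 1 + 1 = Nat.find hex := by omega
      rw [h1]
      exact Nat.find_spec hex
    have hmem : (t ^ (Nat.find hex - 1)).mulVec x ∈ (LinearMap.ker (Matrix.mulVecLin t) ⊓
      (⊥ : Submodule k (Fin m → k)).comap (Matrix.mulVecLin θ) : Submodule k (Fin m → k)) := by
      rw [Submodule.mem_inf, LinearMap.mem_ker, Matrix.mulVecLin_apply, Submodule.mem_comap,
        Matrix.mulVecLin_apply, Submodule.mem_bot]
      exact ⟨hty, hpow _ x hx⟩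
    rw [h0, Submodule.mem_bot] at hmem
    exact hy0 hmem
  intro a b hab
  have : θ.mulVec (a - b) = 0 := by
    rw [Matrix.mulVec_sub]
    exact sub_eq_zero.2 hab
  exact sub_eq_zero.1 (hker _ this)

end S6C

variable {k : Type} [Field k] [Fintype k] {m : ℕ}

/-- L-S6-3 (first moment + union bound), in matrix form.  `t` nilpotent on `k^m`, `KS ≤ ker t`,
`KT ≤ ker tᵀ`, thresholds `mS`, `mT`. -/
theorem s6_theta (t : Matrix (Fin m) (Fin m) k) (ht : IsNilpotent t)
    (hq : 4 * (m + 2) < Fintype.card k)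
    (KS KT : Submodule k (Fin m → k)) (mS mT : ℕ)
    (hKS : KS ≤ LinearMap.ker (Matrix.mulVecLin t))
    (hKT : KT ≤ LinearMap.ker (Matrix.mulVecLin t.transpose))
    (hS : ∀ e, 2 * finrank k (KS ⊓ hiSoc (Matrix.mulVecLin t) e : Submodule k (Fin m → k))
      ≤ mS + finrank k (hiSoc (Matrix.mulVecLin t) e))
    (hT : ∀ e, 2 * finrank k (KT ⊓ hiSoc (Matrix.mulVecLin t.transpose) e : Submodule k (Fin m → k))
      ≤ mT + finrank k (hiSoc (Matrix.mulVecLin t.transpose) e)) :
    ∃ θ : Matrix (Fin m) (Fin m) k, IsUnit θ ∧ θ * t + t * θ = 0 ∧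
      finrank k (KS ⊓ KS.comap (Matrix.mulVecLin θ) : Submodule k (Fin m → k)) ≤ mS ∧
      finrank k (KT ⊓ KT.comap (Matrix.mulVecLin θ.transpose) : Submodule k (Fin m → k)) ≤ mT := by
  classical
  have b1 := s6q_bad t ht KS KS mS hKS (fun e => by have := hS e; omega)
  have b2 := s6q_bad_T t ht KT mT hKT hT
  have b3 := s6q_bad t ht (LinearMap.ker (Matrix.mulVecLin t)) ⊥ 0 le_rfl (fun e => by
    have h1 : finrank k (LinearMap.ker (Matrix.mulVecLin t) ⊓ hiSoc (Matrix.mulVecLin t) e :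
        Submodule k (Fin m → k)) ≤ finrank k (hiSoc (Matrix.mulVecLin t) e) :=
      Submodule.finrank_mono inf_le_right
    have h2 : finrank k ((⊥ : Submodule k (Fin m → k)) ⊓ hiSoc (Matrix.mulVecLin t) e :
        Submodule k (Fin m → k)) = 0 := by
      rw [bot_inf_eq, finrank_bot]
    omega)
  obtain ⟨r, hr⟩ : ∃ r, Fintype.card k = r + 1 := ⟨Fintype.card k - 1, by omega⟩
  have hr' : Fintype.card k - 1 = r := by omega
  rw [hr'] at b1 b2 b3
  have hpos : 0 < (Finset.univ.filter (fun θ => θ ∈ s6qTh t)).card :=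
    Finset.card_pos.2 ⟨0, by simp⟩
  obtain ⟨B1, hB1⟩ : ∃ B, B = (Finset.univ.filter (fun θ => θ ∈ s6qTh t)).filter (fun θ =>
      mS < finrank k (KS ⊓ KS.comap (Matrix.mulVecLin θ) : Submodule k (Fin m → k))) := ⟨_, rfl⟩
  obtain ⟨B2, hB2⟩ : ∃ B, B = (Finset.univ.filter (fun θ => θ ∈ s6qTh t)).filter (fun θ =>
      mT < finrank k (KT ⊓ KT.comap (Matrix.mulVecLin θ.transpose) :
        Submodule k (Fin m → k))) := ⟨_, rfl⟩
  obtain ⟨B3, hB3⟩ : ∃ B, B = (Finset.univ.filter (fun θ => θ ∈ s6qTh t)).filter (fun θ =>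
      0 < finrank k (LinearMap.ker (Matrix.mulVecLin t) ⊓
        (⊥ : Submodule k (Fin m → k)).comap (Matrix.mulVecLin θ) :
        Submodule k (Fin m → k))) := ⟨_, rfl⟩
  rw [← hB1] at b1
  rw [← hB2] at b2
  rw [← hB3] at b3
  have hlt : (B1 ∪ B2 ∪ B3).card < (Finset.univ.filter (fun θ => θ ∈ s6qTh t)).card := by
    have h1 : (B1 ∪ B2 ∪ B3).card ≤ B1.card + B2.card + B3.card :=
      (Finset.card_union_le _ _).trans (Nat.add_le_add_right (Finset.card_union_le _ _) _)
    have h2 : r * (B1.card + B2.card + B3.card)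
        ≤ 3 * m * (Finset.univ.filter (fun θ => θ ∈ s6qTh t)).card := by
      calc r * (B1.card + B2.card + B3.card) = r * B1.card + r * B2.card + r * B3.card := by ring
        _ ≤ m * _ + m * _ + m * _ := Nat.add_le_add (Nat.add_le_add b1 b2) b3
        _ = _ := by ring
    have h3 : 3 * m * (Finset.univ.filter (fun θ => θ ∈ s6qTh t)).card
        < r * (Finset.univ.filter (fun θ => θ ∈ s6qTh t)).card :=
      Nat.mul_lt_mul_of_pos_right (by omega) hpos
    have h4 : r * (B1.card + B2.card + B3.card)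
        < r * (Finset.univ.filter (fun θ => θ ∈ s6qTh t)).card := lt_of_le_of_lt h2 h3
    exact lt_of_le_of_lt h1 (Nat.lt_of_mul_lt_mul_left h4)
  obtain ⟨θ, hθ, hθn⟩ := Finset.exists_mem_notMem_of_card_lt_card hlt
  have n1 : θ ∉ B1 := fun h => hθn (Finset.mem_union_left _ (Finset.mem_union_left _ h))
  have n2 : θ ∉ B2 := fun h => hθn (Finset.mem_union_left _ (Finset.mem_union_right _ h))
  have n3 : θ ∉ B3 := fun h => hθn (Finset.mem_union_right _ h)
  have hθ' := (s6q_mem_Th t θ).1 (Finset.mem_filter.1 hθ).2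
  refine ⟨θ, s6q_isUnit t θ ht hθ' ?_, hθ', ?_, ?_⟩
  · by_contra hcon
    exact n3 (by rw [hB3]; exact Finset.mem_filter.2 ⟨hθ, Nat.pos_of_ne_zero hcon⟩)
  · by_contra hcon
    exact n1 (by rw [hB1]; exact Finset.mem_filter.2 ⟨hθ, not_le.1 hcon⟩)
  · by_contra hcon
    exact n2 (by rw [hB2]; exact Finset.mem_filter.2 ⟨hθ, not_le.1 hcon⟩)

end Claimed.Agent.R282
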